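import Vale.Agent.P141.H205.SUse
import Vale.Agent.P141.H588G.ChgW

/-!
# Static spectral cut of a labelled path with weights

`lowG Q Pr F`: the path `F` cut on its affected squares by a family of matrices on the middle
cell.  `lowW Q K c F`: the matrices are the spectral projections of the weighted Gram matrices
`QK (F (k + 1)) K k k n m` on the eigenvalues at most `c`.  The weighted cap holds at every node,
the own energy of the high part is small.
-/

namespace Vale.Agent.P141.H80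

open Finset Matrix Vale.Agent.P141.PL Vale.Agent.P141.H103 Vale.Agent.P141.H205
open Vale.Agent.P075 (Ix val)
open Vale.Agent.P141.H736 (Path Agree)

noncomputable section

variable {κ : Type*} [Fintype κ]

theorem val_mem (k : ℕ) (m : ℤ) (j : Ix k) : 2 ^ k * m + (val k j : ℤ) ∈ iv k m := by
  rw [iv, mem_Ico]
  have h1 : ((val k j : ℕ) : ℤ) < 2 ^ k := by exact_mod_cast Vale.Agent.P075.val_lt k j
  have h2 : (0 : ℤ) ≤ (val k j : ℤ) := by positivity
  constructor <;> linarith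

/-! ### A path cut by a family of matrices -/

section generic

open scoped Classical in
/-- the cut path -/
def lowG (Q : ℕ → ℤ → ℤ → Prop) (Pr : (k : ℕ) → ℤ → ℤ → Matrix (Ix k) (Ix k) ℝ)
    (F : ℕ → ℤ → ℤ → κ → ℝ) : ℕ → ℤ → ℤ → κ → ℝ
  | 0 => 0
  | k + 1 => fun x y => if Q k (ix k x) (ix k y) then
      cutv k (Pr k (ix k x) (ix k y)) (ix k y) (F (k + 1) x) y else lowG Q Pr F k x y

variable {Q : ℕ → ℤ → ℤ → Prop} {Pr : (k : ℕ) → ℤ → ℤ → Matrix (Ix k) (Ix k) ℝ}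
  {F : ℕ → ℤ → ℤ → κ → ℝ}

omit [Fintype κ] in
theorem lowG_zero : lowG Q Pr F 0 = 0 := rfl

omit [Fintype κ] in
theorem lowG_on {k : ℕ} {n m x y : ℤ} (hQ : Q k n m) (hx : x ∈ iv k n) (hy : y ∈ iv k m) :
    lowG Q Pr F (k + 1) x y = cutv k (Pr k n m) m (F (k + 1) x) y := by
  classical
  rw [mem_iv] at hx hy
  subst hx
  subst hy
  show (if Q k (ix k x) (ix k y) then
      cutv k (Pr k (ix k x) (ix k y)) (ix k y) (F (k + 1) x) y else lowG Q Pr F k x y) = _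
  rw [if_pos hQ]

omit [Fintype κ] in
theorem lowG_off {k : ℕ} {n m x y : ℤ} (hQ : ¬ Q k n m) (hx : x ∈ iv k n) (hy : y ∈ iv k m) :
    lowG Q Pr F (k + 1) x y = lowG Q Pr F k x y := by
  classical
  rw [mem_iv] at hx hy
  subst hx
  subst hy
  show (if Q k (ix k x) (ix k y) then
      cutv k (Pr k (ix k x) (ix k y)) (ix k y) (F (k + 1) x) y else lowG Q Pr F k x y) = _
  rw [if_neg hQ]

omit [Fintype κ] in
/-- **the low part is a path with the same affected squares** -/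
theorem lowG_path (N : ℕ) (R S : ℤ) (l : κ) :
    Path N R S Q (fun k x y => lowG Q Pr F k x y l) := by
  intro k _ n _ m _ hQ x hx y hy
  show lowG Q Pr F (k + 1) x y l = lowG Q Pr F k x y l
  rw [lowG_off hQ hx hy]

omit [Fintype κ] in
/-- the high part is a path with the same affected squares -/
theorem highG_path {N : ℕ} {R S : ℤ} {l : κ} (hF : Path N R S Q (fun k x y => F k x y l)) :
    Path N R S Q (fun k x y => F k x y l - lowG Q Pr F k x y l) := by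
  intro k hk n hn m hm hQ x hx y hy
  show F (k + 1) x y l - lowG Q Pr F (k + 1) x y l = F k x y l - lowG Q Pr F k x y l
  rw [lowG_off hQ hx hy]
  have := hF k hk n hn m hm hQ x hx y hy
  rw [show F (k + 1) x y l = F k x y l from this]

/-- weighted Gram matrix of the low part on an affected square -/
theorem QW_lowG {k : ℕ} {n m : ℤ} (hQ : Q k n m) (ht : (Pr k n m)ᵀ = Pr k n m) {a : ℕ} {n' : ℤ}
    (hn : iv a n' ⊆ iv k n) (M : ℤ → Matrix κ κ ℝ) :
    QW a k (lowG Q Pr F (k + 1)) M n' m =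
      Pr k n m * QW a k (F (k + 1)) M n' m * Pr k n m := by
  have h := QW_cut a k (Pr k n m) (F (k + 1)) M n' m
  rw [ht] at h
  rw [← h]
  ext j j'
  unfold QW
  congr 1
  refine sum_congr rfl fun x hx => ?_
  rw [lowG_on hQ (hn hx) (val_mem k m j), lowG_on hQ (hn hx) (val_mem k m j')]

theorem QW_highG {k : ℕ} {n m : ℤ} (hQ : Q k n m) (ht : (Pr k n m)ᵀ = Pr k n m) {a : ℕ} {n' : ℤ}
    (hn : iv a n' ⊆ iv k n) (M : ℤ → Matrix κ κ ℝ) :
    QW a k (fun x y l => F (k + 1) x y l - lowG Q Pr F (k + 1) x y l) M n' m =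
      (1 - Pr k n m) * QW a k (F (k + 1)) M n' m * (1 - Pr k n m) := by
  have h := QW_cut a k (1 - Pr k n m) (F (k + 1)) M n' m
  rw [transpose_sub, transpose_one, ht] at h
  rw [← h]
  ext j j'
  unfold QW
  congr 1
  refine sum_congr rfl fun x hx => ?_
  have f : ∀ j : Ix k, (fun l => F (k + 1) x (2 ^ k * m + val k j) l -
      lowG Q Pr F (k + 1) x (2 ^ k * m + val k j) l) =
      cutv k (1 - Pr k n m) m (F (k + 1) x) (2 ^ k * m + val k j) := by
    intro j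
    funext l
    rw [lowG_on hQ (hn hx) (val_mem k m j), cutv_one]
  beta_reduce
  rw [f j, f j']

/-- **symmetric weights: the own energy of the low part is at most the one of the input** -/
theorem own_lowG {k : ℕ} {n m : ℤ} (hQ : Q k n m) (ht : (Pr k n m)ᵀ = Pr k n m)
    (hi : Pr k n m * Pr k n m = Pr k n m) {a : ℕ} {n' : ℤ} (hn : iv a n' ⊆ iv k n)
    {M : ℤ → Matrix κ κ ℝ} (hM : ∀ x, (M x)ᵀ = M x) :
    (QW a k (lowG Q Pr F (k + 1)) M n' m * QW a k (lowG Q Pr F (k + 1)) M n' m).trace ≤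
      (QW a k (F (k + 1)) M n' m * QW a k (F (k + 1)) M n' m).trace := by
  rw [QW_lowG hQ ht hn]
  exact tr_cut_le ht hi (QW_symm hM n' m)

theorem one_sub_idem {n : Type*} [Fintype n] [DecidableEq n] {P : Matrix n n ℝ}
    (hi : P * P = P) : (1 - P) * (1 - P) = 1 - P := by
  rw [Matrix.sub_mul, Matrix.mul_sub, Matrix.mul_sub, hi, Matrix.one_mul, Matrix.mul_one,
    Matrix.one_mul, sub_self, sub_zero]

theorem own_highG {k : ℕ} {n m : ℤ} (hQ : Q k n m) (ht : (Pr k n m)ᵀ = Pr k n m)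
    (hi : Pr k n m * Pr k n m = Pr k n m) {a : ℕ} {n' : ℤ} (hn : iv a n' ⊆ iv k n)
    {M : ℤ → Matrix κ κ ℝ} (hM : ∀ x, (M x)ᵀ = M x) :
    (QW a k (fun x y l => F (k + 1) x y l - lowG Q Pr F (k + 1) x y l) M n' m *
        QW a k (fun x y l => F (k + 1) x y l - lowG Q Pr F (k + 1) x y l) M n' m).trace ≤
      (QW a k (F (k + 1)) M n' m * QW a k (F (k + 1)) M n' m).trace := by
  rw [QW_highG hQ ht hn]
  exact tr_cut_le (by rw [transpose_sub, transpose_one, ht]) (one_sub_idem hi) (QW_symm hM n' m)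

/-- combinations of rows on an affected square, low part -/
theorem lowG_rows {k : ℕ} {n m : ℤ} (hQ : Q k n m) (ht : (Pr k n m)ᵀ = Pr k n m)
    (hi : Pr k n m * Pr k n m = Pr k n m) {X : Finset ℤ} (hX : X ⊆ iv k n)
    (w : ℤ → κ → ℝ) :
    ∑ y ∈ iv k m, (∑ x ∈ X, ∑ l, w x l * lowG Q Pr F (k + 1) x y l) ^ 2 ≤
      ∑ y ∈ iv k m, (∑ x ∈ X, ∑ l, w x l * F (k + 1) x y l) ^ 2 := by
  refine le_trans (le_of_eq ?_) (cut_rows ht hi m X w (F (k + 1)))
  refine sum_congr rfl fun y hy => ?_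
  congr 1
  refine sum_congr rfl fun x hx => sum_congr rfl fun l _ => ?_
  rw [lowG_on hQ (hX hx) hy]

/-- combinations of rows on an affected square, high part -/
theorem highG_rows {k : ℕ} {n m : ℤ} (hQ : Q k n m) (ht : (Pr k n m)ᵀ = Pr k n m)
    (hi : Pr k n m * Pr k n m = Pr k n m) {X : Finset ℤ} (hX : X ⊆ iv k n)
    (w : ℤ → κ → ℝ) :
    ∑ y ∈ iv k m, (∑ x ∈ X, ∑ l, w x l * (F (k + 1) x y l - lowG Q Pr F (k + 1) x y l)) ^ 2 ≤
      ∑ y ∈ iv k m, (∑ x ∈ X, ∑ l, w x l * F (k + 1) x y l) ^ 2 := by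
  refine le_trans (le_of_eq ?_) (cut_rows (P := 1 - Pr k n m)
    (by rw [transpose_sub, transpose_one, ht]) (one_sub_idem hi) m X w (F (k + 1)))
  rw [H588.sum_iv, H588.sum_iv]
  refine sum_congr rfl fun j _ => ?_
  congr 1
  refine sum_congr rfl fun x hx => sum_congr rfl fun l _ => ?_
  rw [lowG_on hQ (hX hx) (val_mem k m j), cutv_one]

/-- **line energies of the low part in the cut variable** -/
theorem lowG_line {e : ℝ} (ht : ∀ k n m, (Pr k n m)ᵀ = Pr k n m)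
    (hi : ∀ k n m, Pr k n m * Pr k n m = Pr k n m) (hQ0 : ∀ n m, Q 0 n m)
    (h : ∀ k n m, Q k n m → ∀ x ∈ iv k n,
      ∑ y ∈ iv k m, F (k + 1) x y ⬝ᵥ F (k + 1) x y ≤ e * 2 ^ k) :
    ∀ (k : ℕ) (n m : ℤ), ∀ x ∈ iv k n,
      ∑ y ∈ iv k m, lowG Q Pr F (k + 1) x y ⬝ᵥ lowG Q Pr F (k + 1) x y ≤ e * 2 ^ k := by
  have on : ∀ k n m, Q k n m → ∀ x ∈ iv k n,
      ∑ y ∈ iv k m, lowG Q Pr F (k + 1) x y ⬝ᵥ lowG Q Pr F (k + 1) x y ≤ e * 2 ^ k := by
    intro k n m hQ x hx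
    refine le_trans (le_of_eq ?_) ((cut_row (ht k n m) (hi k n m) m (F (k + 1) x)).trans
      (h k n m hQ x hx))
    refine sum_congr rfl fun y hy => ?_
    rw [lowG_on hQ hx hy]
  intro k
  induction k with
  | zero => exact fun n m x hx => on 0 n m (hQ0 n m) x hx
  | succ k ih =>
    intro n m x hx
    by_cases hQ : Q (k + 1) n m
    · exact on (k + 1) n m hQ x hx
    · have e1 : ∀ y ∈ iv (k + 1) m, lowG Q Pr F (k + 1 + 1) x y ⬝ᵥ lowG Q Pr F (k + 1 + 1) x y =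
          lowG Q Pr F (k + 1) x y ⬝ᵥ lowG Q Pr F (k + 1) x y := fun y hy => by
        rw [lowG_off hQ hx hy]
      rw [sum_congr rfl e1, sum_iv_two' k m fun y =>
        lowG Q Pr F (k + 1) x y ⬝ᵥ lowG Q Pr F (k + 1) x y]
      have hx1 : x ∈ iv k (ix k x) := mem_iv.2 rfl
      have h1 := ih (ix k x) (2 * m) x hx1
      have h2 := ih (ix k x) (2 * m + 1) x hx1
      calc _ ≤ e * 2 ^ k + e * 2 ^ k := add_le_add h1 h2
        _ = e * 2 ^ (k + 1) := by rw [pow_succ]; ring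

/-! ### The cap without weight is inherited -/

/-- the cap of a cut block -/
theorem capS_cut {c : ℝ} (hc : 0 ≤ c) {a k : ℕ} {n m : ℤ} {P : Matrix (Ix k) (Ix k) ℝ}
    (ht : Pᵀ = P) (hi : P * P = P) {b : ℤ → ℤ → κ → ℝ} (h : CapS c a k b n m) :
    CapS c a k (fun x y => cutv k P m (b x) y) n m := by
  intro w
  set w' : ℤ → ℝ := fun y => cutv k P m (fun y (_ : Unit) => w y) y () with hw
  have e1 : ∀ (x : ℤ) (l : κ), ∑ y ∈ iv k m, w y * cutv k P m (b x) y l =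
      ∑ y ∈ iv k m, w' y * b x y l := by
    intro x l
    rw [H588.sum_iv, H588.sum_iv]
    simp only [hw, cutv_val, mul_sum, sum_mul]
    rw [sum_comm]
    refine sum_congr rfl fun j _ => sum_congr rfl fun j' _ => ?_
    have : P j' j = P j j' := by
      conv_lhs => rw [← ht]
      rfl
    rw [this]
    ring
  have e2 : ∑ y ∈ iv k m, w' y ^ 2 ≤ ∑ y ∈ iv k m, w y ^ 2 := by
    rw [H588.sum_iv, H588.sum_iv]
    refine le_trans (le_of_eq ?_) (proj_vec_le ht hi fun j => w (2 ^ k * m + val k j))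
    refine sum_congr rfl fun j _ => ?_
    rw [hw]
    beta_reduce
    rw [cutv_val]
  simp only [e1]
  refine (h w').trans ?_
  exact mul_le_mul_of_nonneg_left e2 (by positivity)

/-- middle cells -/
theorem capS_mid {c : ℝ} {a k : ℕ} {b : ℤ → ℤ → κ → ℝ} {n m : ℤ}
    (h1 : CapS c a k b n (2 * m)) (h2 : CapS c a k b n (2 * m + 1)) :
    CapS c a (k + 1) b n m := by
  intro w
  have h3 : ∑ x ∈ iv a n, ∑ l, (∑ y ∈ iv (k + 1) m, w y * b x y l) ^ 2 ≤
      ∑ x ∈ iv a n, ∑ l, (2 * (∑ y ∈ iv k (2 * m), w y * b x y l) ^ 2 +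
        2 * (∑ y ∈ iv k (2 * m + 1), w y * b x y l) ^ 2) := by
    refine sum_le_sum fun x _ => sum_le_sum fun l _ => ?_
    rw [sum_iv_two' k m fun y => w y * b x y l]
    nlinarith [sq_nonneg ((∑ y ∈ iv k (2 * m), w y * b x y l) -
      ∑ y ∈ iv k (2 * m + 1), w y * b x y l)]
  refine h3.trans ?_
  have h4 := h1 w
  have h5 := h2 w
  rw [sum_iv_two' k m fun y => w y ^ 2]
  simp only [sum_add_distrib, ← mul_sum]
  rw [pow_succ]
  nlinarith

/-- **the cap of the input on the affected squares is inherited by the low part on every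
square** -/
theorem capS_lowG {c : ℝ} (hc : 0 ≤ c) (ht : ∀ k n m, (Pr k n m)ᵀ = Pr k n m)
    (hi : ∀ k n m, Pr k n m * Pr k n m = Pr k n m) (hQ0 : ∀ n m, Q 0 n m)
    (h : ∀ k n m, Q k n m → CapS c k k (F (k + 1)) n m) :
    ∀ (k : ℕ) (n m : ℤ), CapS c k k (lowG Q Pr F (k + 1)) n m := by
  have on : ∀ k n m, Q k n m → CapS c k k (lowG Q Pr F (k + 1)) n m := by
    intro k n m hQ
    exact capS_congr (fun x hx y hy => (lowG_on hQ hx hy).symm)
      (capS_cut hc (ht k n m) (hi k n m) (h k n m hQ))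
  intro k
  induction k with
  | zero => exact fun n m => on 0 n m (hQ0 n m)
  | succ k ih =>
    intro n m
    by_cases hQ : Q (k + 1) n m
    · exact on (k + 1) n m hQ
    · have h1 : CapS c (k + 1) (k + 1) (lowG Q Pr F (k + 1)) n m :=
        capS_four fun n' _ m' _ => ih n' m'
      exact capS_congr (fun x hx y hy => (lowG_off hQ hx hy).symm) h1

/-- rectangles, longer side in the outer variable -/
theorem capS_out_iter {c : ℝ} {b : ℤ → ℤ → κ → ℝ} {k : ℕ} (h : ∀ n m, CapS c k k b n m) :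
    ∀ (r : ℕ) (n m : ℤ), CapS c (k + r) k b n m
  | 0, n, m => h n m
  | r + 1, n, m => capS_out (capS_out_iter h r (2 * n) m) (capS_out_iter h r (2 * n + 1) m)

/-- rectangles, longer side in the middle variable -/
theorem capS_mid_iter {c : ℝ} {b : ℤ → ℤ → κ → ℝ} {k : ℕ} (h : ∀ n m, CapS c k k b n m) :
    ∀ (r : ℕ) (n m : ℤ), CapS c k (k + r) b n m
  | 0, n, m => h n m
  | r + 1, n, m => capS_mid (capS_mid_iter h r n (2 * m)) (capS_mid_iter h r n (2 * m + 1))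

open scoped Classical in
/-- the cap as a property of the Gram matrix, converse of `capS_iff` -/
theorem capS_form {c : ℝ} {k : ℕ} {b : ℤ → ℤ → κ → ℝ} {n m : ℤ} (h : CapS c k k b n m)
    (w : Ix k → ℝ) : w ⬝ᵥ GQ k b n m *ᵥ w ≤ c * (w ⬝ᵥ w) := by
  set v : ℤ → ℝ := fun y => cutv k 1 m (fun y (_ : Unit) =>
    ∑ j : Ix k, if 2 ^ k * m + (val k j : ℤ) = y then w j else 0) y () with hv
  have hvj : ∀ j : Ix k, v (2 ^ k * m + val k j) = w j := by
    intro j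
    rw [hv]
    beta_reduce
    rw [cutv_val, sum_eq_single j]
    · rw [Matrix.one_apply_eq, mul_one, sum_eq_single j]
      · rw [if_pos rfl]
      · intro j' _ hj'
        rw [if_neg]
        intro he
        apply hj'
        apply H205.val_inj
        have : ((val k j' : ℕ) : ℤ) = (val k j : ℕ) := by linarith
        exact_mod_cast this
      · intro h
        exact absurd (mem_univ _) h
    · intro j' _ hj'
      rw [Matrix.one_apply_ne hj', mul_zero]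
    · intro h
      exact absurd (mem_univ _) h
  have h1 := h v
  have e1 : ∑ y ∈ iv k m, v y ^ 2 = w ⬝ᵥ w := by
    rw [H588.sum_iv]
    exact sum_congr rfl fun j _ => by rw [hvj, sq]
  have e3 : ∀ x, ∑ l, (∑ y ∈ iv k m, v y * b x y l) ^ 2 =
      ∑ j : Ix k, ∑ j' : Ix k, w j * w j' *
        (b x (2 ^ k * m + val k j) ⬝ᵥ b x (2 ^ k * m + val k j')) := by
    intro x
    have e4 : ∀ l, (∑ y ∈ iv k m, v y * b x y l) ^ 2 =
        ∑ j : Ix k, ∑ j' : Ix k, w j * w j' *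
          (b x (2 ^ k * m + val k j) l * b x (2 ^ k * m + val k j') l) := by
      intro l
      rw [H588.sum_iv, sq, Finset.sum_mul_sum]
      exact sum_congr rfl fun j _ => sum_congr rfl fun j' _ => by rw [hvj, hvj]; ring
    simp only [e4]
    rw [sum_comm]
    refine sum_congr rfl fun j _ => ?_
    rw [sum_comm]
    refine sum_congr rfl fun j' _ => ?_
    rw [dotProduct, mul_sum]
  have hG : ∀ j j' : Ix k, GQ k b n m j j' = ((2 : ℝ) ^ k * 2 ^ k)⁻¹ *
      ∑ x ∈ iv k n, b x (2 ^ k * m + val k j) ⬝ᵥ b x (2 ^ k * m + val k j') := by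
    intro j j'
    unfold GQ QW
    congr 1
    refine sum_congr rfl fun x _ => ?_
    rw [one_mulVec]
  have e2 : w ⬝ᵥ GQ k b n m *ᵥ w = ((2 : ℝ) ^ k * 2 ^ k)⁻¹ *
      ∑ x ∈ iv k n, ∑ l, (∑ y ∈ iv k m, v y * b x y l) ^ 2 := by
    have e5 : w ⬝ᵥ GQ k b n m *ᵥ w = ∑ j : Ix k, w j *
        ∑ j' : Ix k, GQ k b n m j j' * w j' := rfl
    rw [e5]
    simp only [e3, hG]
    rw [sum_comm, mul_sum]
    refine sum_congr rfl fun j _ => ?_
    rw [sum_comm, mul_sum, mul_sum]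
    refine sum_congr rfl fun j' _ => ?_
    rw [← mul_sum]
    ring
  rw [e2, ← e1]
  have hp : (0 : ℝ) < 2 ^ k * 2 ^ k := by positivity
  rw [inv_mul_le_iff₀ hp]
  exact h1.trans (le_of_eq (by ring))

end generic

/-! ### The weighted cap -/

section weighted

variable [DecidableEq κ]

/-- weighted cap: outer scale `a`, middle scale `k`, weight of the middle cell -/
def CapK (K : ℤ → ℕ → ℤ → Matrix κ κ ℝ) (c : ℝ) (a k : ℕ) (b : ℤ → ℤ → κ → ℝ) (n m : ℤ) : Prop :=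
  ∀ z : ℤ → κ → ℝ, ∑ y ∈ iv k m, (∑ x ∈ iv a n, z x ⬝ᵥ b x y) ^ 2 ≤
    c * (2 ^ a * 2 ^ k) * ∑ x ∈ iv a n, z x ⬝ᵥ K x k m *ᵥ z x

/-- form of the weighted Gram matrix -/
theorem QK_form (K : ℤ → ℕ → ℤ → Matrix κ κ ℝ) (b : ℤ → ℤ → κ → ℝ) (k : ℕ) (n m : ℤ)
    (w : ℤ → ℝ) :
    (fun j : Ix k => w (2 ^ k * m + val k j)) ⬝ᵥ QK b K k k n m *ᵥ
        (fun j : Ix k => w (2 ^ k * m + val k j)) = ((2 : ℝ) ^ k * 2 ^ k)⁻¹ *
      ∑ x ∈ iv k n, (∑ y ∈ iv k m, w y • b x y) ⬝ᵥ (K x k m)⁻¹ *ᵥ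
        (∑ y ∈ iv k m, w y • b x y) := by
  have e : ∀ x, (∑ y ∈ iv k m, w y • b x y) = ∑ j : Ix k, w (2 ^ k * m + val k j) •
      b x (2 ^ k * m + val k j) := fun x => by
    funext l
    rw [Finset.sum_apply, Finset.sum_apply, H588.sum_iv]
  simp only [e]
  have e2 : ∀ x, (∑ j : Ix k, w (2 ^ k * m + val k j) • b x (2 ^ k * m + val k j)) ⬝ᵥ
      (K x k m)⁻¹ *ᵥ (∑ j : Ix k, w (2 ^ k * m + val k j) • b x (2 ^ k * m + val k j)) =
      ∑ j : Ix k, ∑ j' : Ix k, w (2 ^ k * m + val k j) * w (2 ^ k * m + val k j') *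
        (b x (2 ^ k * m + val k j) ⬝ᵥ (K x k m)⁻¹ *ᵥ b x (2 ^ k * m + val k j')) := by
    intro x
    rw [mulVec_sum, dotProduct_sum]
    rw [sum_comm]
    refine sum_congr rfl fun j' _ => ?_
    rw [sum_dotProduct]
    refine sum_congr rfl fun j _ => ?_
    rw [mulVec_smul, dotProduct_smul, smul_dotProduct, smul_eq_mul, smul_eq_mul]
    ring
  simp only [e2]
  have e5 : (fun j : Ix k => w (2 ^ k * m + val k j)) ⬝ᵥ QK b K k k n m *ᵥ
      (fun j : Ix k => w (2 ^ k * m + val k j)) = ∑ j : Ix k, w (2 ^ k * m + val k j) *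
        ∑ j' : Ix k, QK b K k k n m j j' * w (2 ^ k * m + val k j') := rfl
  rw [e5]
  unfold QK QW
  simp only [mul_sum, sum_mul]
  rw [sum_comm' (s := iv k n) (t := fun _ => univ) (t' := univ) (s' := fun _ => iv k n)
    (by simp)]
  refine sum_congr rfl fun j _ => ?_
  rw [sum_comm]
  refine sum_congr rfl fun x _ => sum_congr rfl fun j' _ => ?_
  ring

/-- dual form of a bound for the weighted Gram matrix -/
theorem capK_of_form {K : ℤ → ℕ → ℤ → Matrix κ κ ℝ} {c : ℝ} (hc : 0 < c) {k : ℕ} {n m : ℤ}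
    (hK : ∀ x, (K x k m).PosDef) {b : ℤ → ℤ → κ → ℝ}
    (h : ∀ w : Ix k → ℝ, w ⬝ᵥ QK b K k k n m *ᵥ w ≤ c * (w ⬝ᵥ w)) : CapK K c k k b n m := by
  intro z
  set v : ℤ → ℝ := fun y => ∑ x ∈ iv k n, z x ⬝ᵥ b x y with hv
  set S : ℝ := ∑ y ∈ iv k m, v y ^ 2 with hS
  set C : ℝ := c * (2 ^ k * 2 ^ k) with hC
  have hC0 : 0 < C := by positivity
  set g : ℤ → κ → ℝ := fun x => ∑ y ∈ iv k m, v y • b x y with hg
  have h1 : ∑ x ∈ iv k n, g x ⬝ᵥ (K x k m)⁻¹ *ᵥ g x ≤ C * S := by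
    have h2 := h fun j => v (2 ^ k * m + val k j)
    rw [QK_form] at h2
    have e1 : (fun j : Ix k => v (2 ^ k * m + val k j)) ⬝ᵥ
        (fun j : Ix k => v (2 ^ k * m + val k j)) = S := by
      rw [hS, H588.sum_iv]
      exact sum_congr rfl fun j _ => by ring
    rw [e1] at h2
    have hp : (0 : ℝ) < 2 ^ k * 2 ^ k := by positivity
    rw [inv_mul_le_iff₀ hp] at h2
    refine h2.trans (le_of_eq ?_)
    rw [hC]
    ring
  have h3 : S = ∑ x ∈ iv k n, z x ⬝ᵥ g x := by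
    have e2 : ∀ x, z x ⬝ᵥ g x = ∑ y ∈ iv k m, v y * (z x ⬝ᵥ b x y) := by
      intro x
      rw [hg]
      beta_reduce
      rw [dotProduct_sum]
      exact sum_congr rfl fun y _ => by rw [dotProduct_smul, smul_eq_mul]
    simp only [e2]
    rw [sum_comm, hS]
    refine sum_congr rfl fun y _ => ?_
    rw [← mul_sum, sq]
  have h4 : ∀ x, 2 * C * (z x ⬝ᵥ g x) ≤ C ^ 2 * (z x ⬝ᵥ K x k m *ᵥ z x) +
      g x ⬝ᵥ (K x k m)⁻¹ *ᵥ g x := by
    intro x
    have hKi := (hK x).inv.posSemidef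
    have h5 := H420.quad_nonneg hKi (C • (K x k m *ᵥ z x) - g x)
    have hs : (K x k m)ᵀ = K x k m := H420.tr_symm (hK x).isHermitian
    have e3 : (K x k m)⁻¹ *ᵥ (K x k m *ᵥ z x) = z x := by
      rw [mulVec_mulVec, H420.inv_mul_self' (hK x), one_mulVec]
    have e4 : (K x k m *ᵥ z x) ⬝ᵥ z x = z x ⬝ᵥ K x k m *ᵥ z x := dotProduct_comm _ _
    have e5 : (K x k m *ᵥ z x) ⬝ᵥ (K x k m)⁻¹ *ᵥ g x = z x ⬝ᵥ g x := by
      rw [dotProduct_mulVec, ← mulVec_transpose, transpose_nonsing_inv, hs, e3]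
    rw [mulVec_sub, mulVec_smul, e3, dotProduct_sub, sub_dotProduct, sub_dotProduct,
      smul_dotProduct, smul_dotProduct, dotProduct_smul, dotProduct_smul, e4, e5,
      dotProduct_comm (g x) (z x)] at h5
    simp only [smul_eq_mul] at h5
    nlinarith
  have h6 : 2 * C * S ≤ C ^ 2 * ∑ x ∈ iv k n, z x ⬝ᵥ K x k m *ᵥ z x + C * S := by
    calc 2 * C * S = ∑ x ∈ iv k n, 2 * C * (z x ⬝ᵥ g x) := by rw [← mul_sum, ← h3]
      _ ≤ ∑ x ∈ iv k n, (C ^ 2 * (z x ⬝ᵥ K x k m *ᵥ z x) +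
          g x ⬝ᵥ (K x k m)⁻¹ *ᵥ g x) := sum_le_sum fun x _ => h4 x
      _ = C ^ 2 * ∑ x ∈ iv k n, z x ⬝ᵥ K x k m *ᵥ z x +
          ∑ x ∈ iv k n, g x ⬝ᵥ (K x k m)⁻¹ *ᵥ g x := by rw [sum_add_distrib, mul_sum]
      _ ≤ _ := by linarith
  have h7 : C * S ≤ C * (C * ∑ x ∈ iv k n, z x ⬝ᵥ K x k m *ᵥ z x) := by nlinarith
  exact le_of_mul_le_mul_left h7 hC0

omit [DecidableEq κ] in
/-- outer halves -/
theorem capK_out {K : ℤ → ℕ → ℤ → Matrix κ κ ℝ} {c : ℝ} {a k : ℕ} {b : ℤ → ℤ → κ → ℝ} {n m : ℤ}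
    (h1 : CapK K c a k b (2 * n) m) (h2 : CapK K c a k b (2 * n + 1) m) :
    CapK K c (a + 1) k b n m := by
  intro z
  have h3 : ∑ y ∈ iv k m, (∑ x ∈ iv (a + 1) n, z x ⬝ᵥ b x y) ^ 2 ≤
      ∑ y ∈ iv k m, (2 * (∑ x ∈ iv a (2 * n), z x ⬝ᵥ b x y) ^ 2 +
        2 * (∑ x ∈ iv a (2 * n + 1), z x ⬝ᵥ b x y) ^ 2) := by
    refine sum_le_sum fun y _ => ?_
    rw [sum_iv_two' a n fun x => z x ⬝ᵥ b x y]
    nlinarith [sq_nonneg ((∑ x ∈ iv a (2 * n), z x ⬝ᵥ b x y) -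
      ∑ x ∈ iv a (2 * n + 1), z x ⬝ᵥ b x y)]
  refine h3.trans ?_
  have h4 := h1 z
  have h5 := h2 z
  rw [sum_iv_two' a n fun x => z x ⬝ᵥ K x k m *ᵥ z x]
  simp only [sum_add_distrib, ← mul_sum]
  rw [pow_succ]
  nlinarith

omit [DecidableEq κ] in
/-- middle halves; the weight of the cell is at least the mean of the weights of its halves -/
theorem capK_mid {K : ℤ → ℕ → ℤ → Matrix κ κ ℝ} {c : ℝ} (hc : 0 ≤ c) {a k : ℕ}
    {b : ℤ → ℤ → κ → ℝ} {n m : ℤ}
    (hK : ∀ x, (K x (k + 1) m - (1 / 2 : ℝ) • (K x k (2 * m) + K x k (2 * m + 1))).PosSemidef)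
    (h1 : CapK K c a k b n (2 * m)) (h2 : CapK K c a k b n (2 * m + 1)) :
    CapK K c a (k + 1) b n m := by
  intro z
  rw [sum_iv_two' k m fun y => (∑ x ∈ iv a n, z x ⬝ᵥ b x y) ^ 2]
  refine (add_le_add (h1 z) (h2 z)).trans ?_
  rw [← mul_add, ← sum_add_distrib, mul_sum, mul_sum]
  refine sum_le_sum fun x _ => ?_
  have h3 := H420.quad_nonneg (hK x) (z x)
  rw [sub_mulVec, dotProduct_sub, smul_mulVec, add_mulVec, dotProduct_smul, dotProduct_add,
    smul_eq_mul] at h3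
  have hp : (0 : ℝ) ≤ c * (2 ^ a * 2 ^ k) := by positivity
  calc c * (2 ^ a * 2 ^ k) * (z x ⬝ᵥ K x k (2 * m) *ᵥ z x + z x ⬝ᵥ K x k (2 * m + 1) *ᵥ z x)
      ≤ c * (2 ^ a * 2 ^ k) * (2 * (z x ⬝ᵥ K x (k + 1) m *ᵥ z x)) :=
        mul_le_mul_of_nonneg_left (by linarith) hp
    _ = c * (2 ^ a * 2 ^ (k + 1)) * (z x ⬝ᵥ K x (k + 1) m *ᵥ z x) := by rw [pow_succ]; ring

omit [DecidableEq κ] in
theorem capK_congr {K : ℤ → ℕ → ℤ → Matrix κ κ ℝ} {c : ℝ} {a k : ℕ} {b b' : ℤ → ℤ → κ → ℝ}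
    {n m : ℤ} (h : ∀ x ∈ iv a n, ∀ y ∈ iv k m, b x y = b' x y) (hb : CapK K c a k b n m) :
    CapK K c a k b' n m := by
  intro z
  refine le_trans (le_of_eq ?_) (hb z)
  refine sum_congr rfl fun y hy => ?_
  congr 1
  exact sum_congr rfl fun x hx => by rw [h x hx y hy]

/-- **the weighted cap in the letters of the light slot**: `l K⁻¹ X K⁻¹ ≤ √l c` -/
theorem capK_node {l : ℝ} {K : ℤ → ℕ → ℤ → Matrix κ κ ℝ} {G : ℤ → Matrix κ κ ℝ} {c : ℝ}
    (hc : 0 ≤ c) (hl : 0 < l) {a k : ℕ} {b : ℤ → ℤ → κ → ℝ} {n m : ℤ}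
    (hG : ∀ x, (G x).PosSemidef) (hK : ∀ x, (K x k m).PosDef)
    (hs : ∀ x, K x k m * K x k m = l • (1 : Matrix κ κ ℝ) + G x)
    (h : CapK K c a k b n m) (z : ℤ → κ → ℝ) :
    l * ∑ y ∈ iv k m, (∑ x ∈ iv a n, ((K x k m)⁻¹ *ᵥ z x) ⬝ᵥ b x y) ^ 2 ≤
      √l * c * (2 ^ a * 2 ^ k) * ∑ x ∈ iv a n, z x ⬝ᵥ z x := by
  have h1 := h fun x => (K x k m)⁻¹ *ᵥ z x
  have h2 : ∀ x, ((K x k m)⁻¹ *ᵥ z x) ⬝ᵥ K x k m *ᵥ ((K x k m)⁻¹ *ᵥ z x) ≤
      (√l)⁻¹ * (z x ⬝ᵥ z x) := by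
    intro x
    have e1 : K x k m *ᵥ ((K x k m)⁻¹ *ᵥ z x) = z x := by
      rw [mulVec_mulVec, H420.mul_inv_self' (hK x), one_mulVec]
    have h3 := H420.quad_nonneg (H420.inv_le hl (hG x) (hK x) (hs x)) (z x)
    rw [sub_mulVec, dotProduct_sub, smul_mulVec, one_mulVec, dotProduct_smul, smul_eq_mul] at h3
    rw [e1, dotProduct_comm]
    linarith
  have h4 : ∑ y ∈ iv k m, (∑ x ∈ iv a n, ((K x k m)⁻¹ *ᵥ z x) ⬝ᵥ b x y) ^ 2 ≤
      c * (2 ^ a * 2 ^ k) * ((√l)⁻¹ * ∑ x ∈ iv a n, z x ⬝ᵥ z x) := by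
    refine h1.trans (mul_le_mul_of_nonneg_left ?_ (by positivity))
    rw [mul_sum]
    exact sum_le_sum fun x _ => h2 x
  have hl2 : l = √l * √l := (Real.mul_self_sqrt hl.le).symm
  have hs0 : √l ≠ 0 := (Real.sqrt_pos.2 hl).ne'
  calc l * ∑ y ∈ iv k m, (∑ x ∈ iv a n, ((K x k m)⁻¹ *ᵥ z x) ⬝ᵥ b x y) ^ 2
      ≤ l * (c * (2 ^ a * 2 ^ k) * ((√l)⁻¹ * ∑ x ∈ iv a n, z x ⬝ᵥ z x)) :=
        mul_le_mul_of_nonneg_left h4 hl.le
    _ = √l * c * (2 ^ a * 2 ^ k) * ∑ x ∈ iv a n, z x ⬝ᵥ z x := by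
        nth_rewrite 1 [hl2]
        field_simp

/-! ### The spectral cut -/

/-- spectral projection of a symmetric matrix; `0` if the matrix is not symmetric -/
def hcut {n : Type*} [Fintype n] [DecidableEq n] (X : Matrix n n ℝ) (c : ℝ) : Matrix n n ℝ :=
  open scoped Classical in if h : X.IsHermitian then lowP h c else 0

theorem hcut_eq {n : Type*} [Fintype n] [DecidableEq n] {X : Matrix n n ℝ} (h : X.IsHermitian)
    (c : ℝ) : hcut X c = lowP h c := by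
  unfold hcut
  rw [dif_pos h]

theorem hcut_tr {n : Type*} [Fintype n] [DecidableEq n] (X : Matrix n n ℝ) (c : ℝ) :
    (hcut X c)ᵀ = hcut X c := by
  by_cases h : X.IsHermitian
  · rw [hcut_eq h, lowP_transpose]
  · unfold hcut
    rw [dif_neg h, transpose_zero]

theorem hcut_idem {n : Type*} [Fintype n] [DecidableEq n] (X : Matrix n n ℝ) (c : ℝ) :
    hcut X c * hcut X c = hcut X c := by
  by_cases h : X.IsHermitian
  · rw [hcut_eq h, lowP_idem]
  · unfold hcut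
    rw [dif_neg h, Matrix.zero_mul]

/-- the projections of the cut: eigenvalues of `QK (F (k + 1)) K k k n m` at most `c` -/
def prW (K : ℤ → ℕ → ℤ → Matrix κ κ ℝ) (c : ℝ) (F : ℕ → ℤ → ℤ → κ → ℝ) (k : ℕ) (n m : ℤ) :
    Matrix (Ix k) (Ix k) ℝ := hcut (QK (F (k + 1)) K k k n m) c

/-- **the low path of the weighted cut** -/
def lowW (Q : ℕ → ℤ → ℤ → Prop) (K : ℤ → ℕ → ℤ → Matrix κ κ ℝ) (c : ℝ)
    (F : ℕ → ℤ → ℤ → κ → ℝ) : ℕ → ℤ → ℤ → κ → ℝ := lowG Q (prW K c F) F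

/-- **the high path of the weighted cut** -/
def highW (Q : ℕ → ℤ → ℤ → Prop) (K : ℤ → ℕ → ℤ → Matrix κ κ ℝ) (c : ℝ)
    (F : ℕ → ℤ → ℤ → κ → ℝ) : ℕ → ℤ → ℤ → κ → ℝ := fun k x y l => F k x y l - lowW Q K c F k x y l

theorem prW_tr (K : ℤ → ℕ → ℤ → Matrix κ κ ℝ) (c : ℝ) (F : ℕ → ℤ → ℤ → κ → ℝ) (k : ℕ)
    (n m : ℤ) : (prW K c F k n m)ᵀ = prW K c F k n m := hcut_tr _ _

theorem prW_idem (K : ℤ → ℕ → ℤ → Matrix κ κ ℝ) (c : ℝ) (F : ℕ → ℤ → ℤ → κ → ℝ) (k : ℕ)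
    (n m : ℤ) : prW K c F k n m * prW K c F k n m = prW K c F k n m := hcut_idem _ _

variable {Q : ℕ → ℤ → ℤ → Prop} {K : ℤ → ℕ → ℤ → Matrix κ κ ℝ} {c : ℝ}
  {F : ℕ → ℤ → ℤ → κ → ℝ}

theorem low_add_high (k : ℕ) (x y : ℤ) (l : κ) :
    lowW Q K c F k x y l + highW Q K c F k x y l = F k x y l := by
  unfold highW
  ring

theorem lowW_zero : lowW Q K c F 0 = 0 := rfl

theorem highW_zero (h : F 0 = 0) : highW Q K c F 0 = 0 := by
  funext x y l
  show F 0 x y l - lowW Q K c F 0 x y l = 0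
  rw [h, lowW_zero]
  simp

theorem lowW_path (N : ℕ) (R S : ℤ) (l : κ) :
    Path N R S Q (fun k x y => lowW Q K c F k x y l) := lowG_path N R S l

theorem highW_path {N : ℕ} {R S : ℤ} {l : κ} (hF : Path N R S Q (fun k x y => F k x y l)) :
    Path N R S Q (fun k x y => highW Q K c F k x y l) := highG_path hF

theorem QKs_psd {k : ℕ} {b : ℤ → ℤ → κ → ℝ} (hK : ∀ x k m, (K x k m).PosDef) (n m : ℤ) :
    (QK b K k k n m).PosSemidef := QW_psd (fun x => (hK x k m).inv.posSemidef) n m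

/-- the weighted cap on an affected square -/
theorem capK_low (hc : 0 < c) (hK : ∀ x k m, (K x k m).PosDef) {k : ℕ} {n m : ℤ}
    (hQ : Q k n m) : CapK K c k k (lowW Q K c F (k + 1)) n m := by
  refine capK_of_form hc (fun x => hK x k m) fun w => ?_
  have e : QK (lowW Q K c F (k + 1)) K k k n m =
      lowP (QKs_psd (b := F (k + 1)) hK n m).1 c * QK (F (k + 1)) K k k n m *
        lowP (QKs_psd (b := F (k + 1)) hK n m).1 c := by
    have h := QW_lowG (F := F) (Pr := prW K c F) hQ (prW_tr K c F k n m) (Subset.refl (iv k n))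
      fun x => (K x k m)⁻¹
    have h2 : prW K c F k n m = lowP (QKs_psd (b := F (k + 1)) hK n m).1 c := hcut_eq _ c
    rw [h2] at h
    exact h
  rw [e]
  exact low_form (QKs_psd (b := F (k + 1)) hK n m).1 hc.le w

/-- **The weighted cap on every square of scale at most `N`.** -/
theorem capK_path (hc : 0 < c) (hK : ∀ x k m, (K x k m).PosDef) (hQ0 : ∀ n m, Q 0 n m) {N : ℕ}
    (hKm : ∀ k < N, ∀ x m,
      (K x (k + 1) m - (1 / 2 : ℝ) • (K x k (2 * m) + K x k (2 * m + 1))).PosSemidef) :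
    ∀ k ≤ N, ∀ n m : ℤ, CapK K c k k (lowW Q K c F (k + 1)) n m
  | 0, _, n, m => capK_low hc hK (hQ0 n m)
  | k + 1, hk, n, m => by
      by_cases hQ : Q (k + 1) n m
      · exact capK_low hc hK hQ
      · have h1 : CapK K c (k + 1) (k + 1) (lowW Q K c F (k + 1)) n m :=
          capK_mid hc.le (fun x => hKm k (by omega) x m)
            (capK_out (capK_path hc hK hQ0 hKm k (by omega) (2 * n) (2 * m))
              (capK_path hc hK hQ0 hKm k (by omega) (2 * n + 1) (2 * m)))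
            (capK_out (capK_path hc hK hQ0 hKm k (by omega) (2 * n) (2 * m + 1))
              (capK_path hc hK hQ0 hKm k (by omega) (2 * n + 1) (2 * m + 1)))
        exact capK_congr (fun x hx y hy => (lowG_off hQ hx hy).symm) h1

/-- **rectangles with the longer side in the middle variable of the path** (`x` on the cell of
scale `k`, `y` on the cell of scale `k + r`) -/
theorem capK_rect (hc : 0 < c) (hK : ∀ x k m, (K x k m).PosDef) (hQ0 : ∀ n m, Q 0 n m) {N : ℕ}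
    (hKm : ∀ k < N, ∀ x m,
      (K x (k + 1) m - (1 / 2 : ℝ) • (K x k (2 * m) + K x k (2 * m + 1))).PosSemidef) (k : ℕ) :
    ∀ r, k + r ≤ N → ∀ n m : ℤ, CapK K c k (k + r) (lowW Q K c F (k + 1)) n m
  | 0, hr, n, m => capK_path hc hK hQ0 hKm k hr n m
  | r + 1, hr, n, m => capK_mid hc.le (fun x => hKm (k + r) (by omega) x m)
      (capK_rect hc hK hQ0 hKm k r (by omega) n (2 * m))
      (capK_rect hc hK hQ0 hKm k r (by omega) n (2 * m + 1))

/-- the hypothesis on the weights for a tree of square roots -/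
theorem tr_mean {l : ℝ} {N : ℕ} {G : ℤ → ℕ → ℤ → Matrix κ κ ℝ}
    (h : ∀ x, H420.Tr l N (G x) (K x)) :
    ∀ k < N, ∀ x m,
      (K x (k + 1) m - (1 / 2 : ℝ) • (K x k (2 * m) + K x k (2 * m + 1))).PosSemidef :=
  fun _ hk x m => ((h x).nd hk m).Kb_le

/-- **THE CAP OF THE LIGHT SLOT AT EVERY NODE**: `l K⁻¹ X K⁻¹ ≤ √l c` for the low part, `x` on the
cell of scale `k`, `y` on the cell of scale `k + r ≤ N` -/
theorem cap_node {l : ℝ} {N : ℕ} {G : ℤ → ℕ → ℤ → Matrix κ κ ℝ} (hc : 0 < c)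
    (h : ∀ x, H420.Tr l N (G x) (K x)) (hQ0 : ∀ n m, Q 0 n m) {k r : ℕ} (hr : k + r ≤ N)
    (n m : ℤ) (z : ℤ → κ → ℝ) :
    l * ∑ y ∈ iv (k + r) m,
        (∑ x ∈ iv k n, ((K x (k + r) m)⁻¹ *ᵥ z x) ⬝ᵥ lowW Q K c F (k + 1) x y) ^ 2 ≤
      √l * c * (2 ^ k * 2 ^ (k + r)) * ∑ x ∈ iv k n, z x ⬝ᵥ z x :=
  capK_node (G := fun x => G x (k + r) m) hc.le (h 0).l_pos (fun x => (h x).psG _ _)
    (fun x => (h x).pdK _ _) (fun x => (h x).sq _ _)
    (capK_rect hc (fun x k m => (h x).pdK k m) hQ0 (tr_mean h) k r hr n m) z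

/-! ### The high part -/

omit [DecidableEq κ] [Fintype κ] in
/-- a compressed capped matrix -/
theorem high_mat {n : Type*} [Fintype n] [DecidableEq n] {P X : Matrix n n ℝ} (ht : Pᵀ = P)
    (hi : P * P = P) (hX : X.PosSemidef) {q : ℝ} (hq : 0 ≤ q)
    (hqX : (q • (1 : Matrix n n ℝ) - X).PosSemidef) :
    (P * X * P * (P * X * P)).trace ≤ q ^ 2 * P.trace := by
  have hPp : P.PosSemidef := by
    have h := (PosSemidef.one (n := n) (R := ℝ)).conjTranspose_mul_mul_same P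
    rw [Matrix.mul_one, conjTranspose_eq_transpose_of_trivial, ht, hi] at h
    exact h
  have hYp : (P * X * P).PosSemidef := by
    have h := hX.conjTranspose_mul_mul_same P
    rwa [conjTranspose_eq_transpose_of_trivial, ht] at h
  have hqY : (q • P - P * X * P).PosSemidef := by
    have h := hqX.conjTranspose_mul_mul_same P
    rw [conjTranspose_eq_transpose_of_trivial, ht, Matrix.mul_sub, Matrix.sub_mul,
      Matrix.mul_smul, Matrix.smul_mul, Matrix.mul_one, hi] at h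
    exact h
  have a1 := H420.trace_mul_nonneg hqY hYp
  rw [Matrix.sub_mul, trace_sub, Matrix.smul_mul, trace_smul, smul_eq_mul] at a1
  have a2 : P * (P * X * P) = P * X * P := by
    rw [← Matrix.mul_assoc, ← Matrix.mul_assoc, hi]
  rw [a2] at a1
  have a3 := H420.trace_mul_nonneg hqY hPp
  rw [Matrix.sub_mul, trace_sub, Matrix.smul_mul, trace_smul, smul_eq_mul, hi] at a3
  have a4 : P * X * P * P = P * X * P := by
    rw [Matrix.mul_assoc, hi]
  rw [a4] at a3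
  nlinarith

/-- number of large eigenvalues -/
theorem high_cnt {n : Type*} [Fintype n] [DecidableEq n] {W : Matrix n n ℝ} (h : W.PosSemidef)
    {c : ℝ} (hc : 0 ≤ c) : c ^ 2 * (1 - lowP h.1 c).trace ≤ (W * W).trace := by
  have b1 : (W * W).trace = ∑ i, h.1.eigenvalues i * h.1.eigenvalues i := by
    have : W * W = spf h.1 (fun s => s * s) := by
      rw [← spf_mul, spf_id h.1]
    rw [this, spf_trace]
  rw [b1, highP_eq, spf_trace, mul_sum]
  refine sum_le_sum fun i _ => ?_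
  have h0 := h.eigenvalues_nonneg i
  split_ifs with hi
  · rw [mul_zero]
    exact mul_nonneg h0 h0
  · rw [not_le] at hi
    nlinarith

/-- **OWN ENERGY OF THE HIGH PART ON AN AFFECTED SQUARE**: `q` is the cap of the input -/
theorem own_high (hc : 0 < c) (hK : ∀ x k m, (K x k m).PosDef) {k : ℕ} {n m : ℤ} (hQ : Q k n m)
    {q : ℝ} (hq : 0 ≤ q) (hcap : CapS q k k (F (k + 1)) n m) :
    c ^ 2 * (GQ k (highW Q K c F (k + 1)) n m * GQ k (highW Q K c F (k + 1)) n m).trace ≤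
      q ^ 2 * (QK (F (k + 1)) K k k n m * QK (F (k + 1)) K k k n m).trace := by
  have hWp : (QK (F (k + 1)) K k k n m).PosSemidef := QKs_psd hK n m
  have hXp : (GQ k (F (k + 1)) n m).PosSemidef := GQ_psd k _ n m
  have e : GQ k (highW Q K c F (k + 1)) n m =
      (1 - prW K c F k n m) * GQ k (F (k + 1)) n m * (1 - prW K c F k n m) :=
    QW_highG (F := F) (Pr := prW K c F) hQ (prW_tr K c F k n m) (Subset.refl (iv k n)) _
  have hP : prW K c F k n m = lowP hWp.1 c := hcut_eq _ c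
  have hqX : (q • (1 : Matrix (Ix k) (Ix k) ℝ) - GQ k (F (k + 1)) n m).PosSemidef := by
    refine .of_dotProduct_mulVec_nonneg ?_ fun w => ?_
    · exact (isHermitian_one.smul (by simp [IsSelfAdjoint])).sub hXp.1
    · have h := capS_form hcap w
      rw [star_trivial, sub_mulVec, dotProduct_sub, smul_mulVec, one_mulVec, dotProduct_smul,
        smul_eq_mul]
      linarith
  have h1 := high_mat (P := 1 - prW K c F k n m) (by rw [transpose_sub, transpose_one, prW_tr])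
    (one_sub_idem (prW_idem ..)) hXp hq hqX
  have h2 := high_cnt hWp hc.le
  rw [← hP] at h2
  rw [e]
  calc _ ≤ c ^ 2 * (q ^ 2 * (1 - prW K c F k n m).trace) :=
        mul_le_mul_of_nonneg_left h1 (by positivity)
    _ = q ^ 2 * (c ^ 2 * (1 - prW K c F k n m).trace) := by ring
    _ ≤ _ := mul_le_mul_of_nonneg_left h2 (by positivity)

end weighted

end

end Vale.Agent.P141.H80
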