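import Vale.Agent.P141.H80.LightCut

/-!
# Columns and rows of a cut path

* `low_diag`: diagonal of the compressed Gram matrix for the weighted cut;
* `lowG_col`, `lowG_row`: energies of one column and of one row on every square;
* `lowW_col`: **a column of the low part of the weighted cut**, factor
  `2 (1 + (q / (√l c)) ^ 2)`.
-/

namespace Vale.Agent.P141.H80

open Finset Matrix Vale.Agent.P141.PL Vale.Agent.P141.H103 Vale.Agent.P141.H205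
open Vale.Agent.P075 (Ix val)
open Vale.Agent.P141.H736 (Path Agree)

noncomputable section

/-! ### One matrix -/

section mat

variable {n : Type*} [Fintype n] [DecidableEq n]

omit [DecidableEq n] in
theorem form_compress {P : Matrix n n ℝ} (ht : Pᵀ = P) (X : Matrix n n ℝ) (v : n → ℝ) :
    v ⬝ᵥ (P * X * P) *ᵥ v = (P *ᵥ v) ⬝ᵥ X *ᵥ (P *ᵥ v) := by
  rw [← mulVec_mulVec, ← mulVec_mulVec, dotProduct_mulVec v P, ← mulVec_transpose, ht]

/-- the high projection is small on the vectors where `X` is small -/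
theorem high_vec {X W : Matrix n n ℝ} (hW : W.PosSemidef) {c w q : ℝ}
    (hc : 0 < c) (hw : 0 ≤ w) (hq : 0 ≤ q)
    (hWX : ∀ v, v ⬝ᵥ W *ᵥ v ≤ w * (v ⬝ᵥ X *ᵥ v)) (hX : ∀ v, v ⬝ᵥ X *ᵥ v ≤ q * (v ⬝ᵥ v))
    (v : n → ℝ) :
    c ^ 2 * (v ⬝ᵥ (1 - lowP hW.1 c) *ᵥ v) ≤ w * q * (w * (v ⬝ᵥ X *ᵥ v)) := by
  have h1 : c ^ 2 * (v ⬝ᵥ (1 - lowP hW.1 c) *ᵥ v) ≤ v ⬝ᵥ (W * W) *ᵥ v := by
    have e1 : W * W = spf hW.1 (fun s => s * s) := by
      rw [← spf_mul, spf_id hW.1]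
    rw [e1, highP_eq, spf_form, spf_form, mul_sum]
    refine sum_le_sum fun i _ => ?_
    have h0 := sq_nonneg (∑ j, hW.1.eigenvectorBasis i j * v j)
    have h2 := hW.eigenvalues_nonneg i
    split_ifs with hi
    · rw [zero_mul, mul_zero]
      positivity
    · rw [not_le] at hi
      rw [one_mul]
      exact mul_le_mul_of_nonneg_right (by nlinarith) h0
  have h2 : v ⬝ᵥ (W * W) *ᵥ v ≤ w * q * (v ⬝ᵥ W *ᵥ v) := by
    have e1 : v ⬝ᵥ (W * W) *ᵥ v = v ⬝ᵥ spf hW.1 (fun s => s * s) *ᵥ v := by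
      rw [← spf_mul, spf_id hW.1]
    have e2 : w * q * (v ⬝ᵥ W *ᵥ v) = v ⬝ᵥ spf hW.1 (fun s => w * q * s) *ᵥ v := by
      have e3 : v ⬝ᵥ W *ᵥ v = v ⬝ᵥ spf hW.1 (fun s => s) *ᵥ v := by rw [spf_id hW.1]
      rw [e3, spf_form, spf_form, mul_sum]
      exact sum_congr rfl fun i _ => by ring
    rw [e1, e2]
    refine spf_form_le hW.1 (fun i => ?_) v
    have h0 := hW.eigenvalues_nonneg i
    have hle : hW.1.eigenvalues i ≤ w * q := by
      set g : n → ℝ := (hW.1.eigenvectorBasis i).ofLp with hg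
      have g1 : g ⬝ᵥ g = 1 := by
        have := H834.eig_orth hW.1 i i
        rw [if_pos rfl] at this
        exact this
      have g2 : g ⬝ᵥ W *ᵥ g = hW.1.eigenvalues i := by
        have := hW.1.mulVec_eigenvectorBasis i
        rw [hg, this, dotProduct_smul, smul_eq_mul]
        rw [← hg, g1, mul_one]
      have g3 := hWX g
      have g4 := hX g
      rw [g1, mul_one] at g4
      rw [g2] at g3
      exact g3.trans (mul_le_mul_of_nonneg_left g4 hw)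
    exact mul_le_mul_of_nonneg_right hle h0
  have h3 := hWX v
  have hwq : 0 ≤ w * q := mul_nonneg hw hq
  exact h1.trans (h2.trans (mul_le_mul_of_nonneg_left h3 hwq))

/-- **diagonal of the compressed matrix** -/
theorem low_diag {X W : Matrix n n ℝ} (hXp : X.PosSemidef) (hW : W.PosSemidef) {c w q : ℝ}
    (hc : 0 < c) (hw : 0 ≤ w) (hq : 0 ≤ q)
    (hWX : ∀ v, v ⬝ᵥ W *ᵥ v ≤ w * (v ⬝ᵥ X *ᵥ v)) (hX : ∀ v, v ⬝ᵥ X *ᵥ v ≤ q * (v ⬝ᵥ v))
    (v : n → ℝ) :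
    v ⬝ᵥ (lowP hW.1 c * X * lowP hW.1 c) *ᵥ v ≤
      2 * (1 + (w * q / c) ^ 2) * (v ⬝ᵥ X *ᵥ v) := by
  rw [form_compress (lowP_transpose _ _)]
  set u := (1 - lowP hW.1 c) *ᵥ v with hu
  have e1 : lowP hW.1 c *ᵥ v = v - u := by
    rw [hu, sub_mulVec, one_mulVec, sub_sub_cancel]
  rw [e1]
  have h1 : u ⬝ᵥ u = v ⬝ᵥ (1 - lowP hW.1 c) *ᵥ v := by
    have : v ⬝ᵥ ((1 - lowP hW.1 c) * (1 - lowP hW.1 c)) *ᵥ v = u ⬝ᵥ u := by
      rw [← mulVec_mulVec, dotProduct_mulVec, ← mulVec_transpose, highP_transpose]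
    rw [← this, highP_idem]
  have h2 := high_vec hW hc hw hq hWX hX v
  rw [← h1] at h2
  have h3 := hX u
  have h4 : u ⬝ᵥ X *ᵥ u ≤ (w * q / c) ^ 2 * (v ⬝ᵥ X *ᵥ v) := by
    refine h3.trans ?_
    have hc2 : 0 < c ^ 2 := by positivity
    have h5 : u ⬝ᵥ u ≤ w * q * (w * (v ⬝ᵥ X *ᵥ v)) / c ^ 2 := by
      rw [le_div_iff₀ hc2]
      linarith
    refine (mul_le_mul_of_nonneg_left h5 hq).trans (le_of_eq ?_)
    field_simp
  have hs : Xᵀ = X := by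
    have := hXp.1
    rwa [IsHermitian, conjTranspose_eq_transpose_of_trivial] at this
  have h6 : 0 ≤ (v + u) ⬝ᵥ X *ᵥ (v + u) := by simpa using hXp.dotProduct_mulVec_nonneg (v + u)
  rw [mulVec_add, dotProduct_add, add_dotProduct, add_dotProduct] at h6
  rw [mulVec_sub, dotProduct_sub, sub_dotProduct, sub_dotProduct]
  nlinarith

end mat

/-! ### Columns and rows on every square -/

variable {κ : Type*} [Fintype κ]

section generic

variable {Q : ℕ → ℤ → ℤ → Prop} {Pr : (k : ℕ) → ℤ → ℤ → Matrix (Ix k) (Ix k) ℝ}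
  {F : ℕ → ℤ → ℤ → κ → ℝ}

theorem mem_child {N k : ℕ} (hk : k + 1 ≤ N) {R n : ℤ} (h : n ∈ iv (N - (k + 1)) R) :
    2 * n ∈ iv (N - k) R ∧ 2 * n + 1 ∈ iv (N - k) R := by
  have e : N - k = 1 + (N - (k + 1)) := by omega
  rw [mem_iv] at h
  rw [mem_iv, mem_iv, e, ← ix_ix, ← ix_ix]
  have e1 : ix 1 (2 * n) = n := by
    unfold ix
    omega
  have e2 : ix 1 (2 * n + 1) = n := by
    unfold ix
    omega
  rw [e1, e2]
  exact ⟨h, h⟩

theorem mem_half {k : ℕ} {m y : ℤ} (hy : y ∈ iv (k + 1) m) :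
    y ∈ iv k (2 * m) ∨ y ∈ iv k (2 * m + 1) := by
  rw [iv, mem_Ico] at hy
  rw [iv, iv, mem_Ico, mem_Ico]
  rw [pow_succ] at hy
  by_cases h : y < 2 ^ k * (2 * m + 1)
  · left
    constructor <;> nlinarith [hy.1, hy.2]
  · right
    push Not at h
    constructor <;> nlinarith [hy.1, hy.2]

/-- energy of one column -/
theorem lowG_col {N : ℕ} {R S : ℤ} {H : ℝ}
    (hF : ∀ l, Path N R S Q (fun k x y => F k x y l)) (hQ0 : ∀ n m, Q 0 n m)
    (h : ∀ k < N, ∀ n ∈ iv (N - k) R, ∀ m ∈ iv (N - k) S, Q k n m → ∀ y ∈ iv k m,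
      ∑ x ∈ iv k n, lowG Q Pr F (k + 1) x y ⬝ᵥ lowG Q Pr F (k + 1) x y ≤
        H * ∑ x ∈ iv k n, F (k + 1) x y ⬝ᵥ F (k + 1) x y) :
    ∀ k < N, ∀ n ∈ iv (N - k) R, ∀ m ∈ iv (N - k) S, ∀ y ∈ iv k m,
      ∑ x ∈ iv k n, lowG Q Pr F (k + 1) x y ⬝ᵥ lowG Q Pr F (k + 1) x y ≤
        H * ∑ x ∈ iv k n, F (k + 1) x y ⬝ᵥ F (k + 1) x y := by
  intro k
  induction k with
  | zero => exact fun h0 n hn m hm y hy => h 0 h0 n hn m hm (hQ0 n m) y hy
  | succ k ih =>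
    intro hk n hn m hm y hy
    by_cases hQ : Q (k + 1) n m
    · exact h (k + 1) hk n hn m hm hQ y hy
    · have e1 : ∀ x ∈ iv (k + 1) n, lowG Q Pr F (k + 1 + 1) x y = lowG Q Pr F (k + 1) x y :=
        fun x hx => lowG_off hQ hx hy
      have e2 : ∀ x ∈ iv (k + 1) n, F (k + 1 + 1) x y = F (k + 1) x y := by
        intro x hx
        funext l
        exact hF l (k + 1) hk n hn m hm hQ x hx y hy
      have s1 : ∑ x ∈ iv (k + 1) n, lowG Q Pr F (k + 1 + 1) x y ⬝ᵥ lowG Q Pr F (k + 1 + 1) x y =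
          ∑ x ∈ iv (k + 1) n, lowG Q Pr F (k + 1) x y ⬝ᵥ lowG Q Pr F (k + 1) x y :=
        sum_congr rfl fun x hx => by rw [e1 x hx]
      have s2 : ∑ x ∈ iv (k + 1) n, F (k + 1 + 1) x y ⬝ᵥ F (k + 1 + 1) x y =
          ∑ x ∈ iv (k + 1) n, F (k + 1) x y ⬝ᵥ F (k + 1) x y :=
        sum_congr rfl fun x hx => by rw [e2 x hx]
      rw [s1, s2]
      rw [sum_iv_two' k n fun x => lowG Q Pr F (k + 1) x y ⬝ᵥ lowG Q Pr F (k + 1) x y,
        sum_iv_two' k n fun x => F (k + 1) x y ⬝ᵥ F (k + 1) x y, mul_add]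
      have hn' := mem_child (by omega) hn
      have hm' := mem_child (by omega) hm
      rcases mem_half hy with hy' | hy'
      · exact add_le_add (ih (by omega) _ hn'.1 _ hm'.1 y hy') (ih (by omega) _ hn'.2 _ hm'.1 y hy')
      · exact add_le_add (ih (by omega) _ hn'.1 _ hm'.2 y hy') (ih (by omega) _ hn'.2 _ hm'.2 y hy')

/-- **one row on every square**: combination of the labels -/
theorem lowG_row {N : ℕ} {R S : ℤ} (ht : ∀ k n m, (Pr k n m)ᵀ = Pr k n m)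
    (hi : ∀ k n m, Pr k n m * Pr k n m = Pr k n m)
    (hF : ∀ l, Path N R S Q (fun k x y => F k x y l)) (hQ0 : ∀ n m, Q 0 n m) (w : κ → ℝ) :
    ∀ k < N, ∀ n ∈ iv (N - k) R, ∀ m ∈ iv (N - k) S, ∀ x ∈ iv k n,
      ∑ y ∈ iv k m, (w ⬝ᵥ lowG Q Pr F (k + 1) x y) ^ 2 ≤
        ∑ y ∈ iv k m, (w ⬝ᵥ F (k + 1) x y) ^ 2 := by
  have on : ∀ k n m, Q k n m → ∀ x ∈ iv k n,
      ∑ y ∈ iv k m, (w ⬝ᵥ lowG Q Pr F (k + 1) x y) ^ 2 ≤
        ∑ y ∈ iv k m, (w ⬝ᵥ F (k + 1) x y) ^ 2 := by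
    intro k n m hQ x hx
    have h1 := lowG_rows (F := F) hQ (ht k n m) (hi k n m) (X := {x})
      (singleton_subset_iff.2 hx) fun _ => w
    simp only [sum_singleton] at h1
    exact h1
  intro k
  induction k with
  | zero => exact fun _ n _ m _ x hx => on 0 n m (hQ0 n m) x hx
  | succ k ih =>
    intro hk n hn m hm x hx
    by_cases hQ : Q (k + 1) n m
    · exact on (k + 1) n m hQ x hx
    · have e1 : ∀ y ∈ iv (k + 1) m, lowG Q Pr F (k + 1 + 1) x y = lowG Q Pr F (k + 1) x y :=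
        fun y hy => lowG_off hQ hx hy
      have e2 : ∀ y ∈ iv (k + 1) m, F (k + 1 + 1) x y = F (k + 1) x y := by
        intro y hy
        funext l
        exact hF l (k + 1) hk n hn m hm hQ x hx y hy
      have s1 : ∑ y ∈ iv (k + 1) m, (w ⬝ᵥ lowG Q Pr F (k + 1 + 1) x y) ^ 2 =
          ∑ y ∈ iv (k + 1) m, (w ⬝ᵥ lowG Q Pr F (k + 1) x y) ^ 2 :=
        sum_congr rfl fun y hy => by rw [e1 y hy]
      have s2 : ∑ y ∈ iv (k + 1) m, (w ⬝ᵥ F (k + 1 + 1) x y) ^ 2 =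
          ∑ y ∈ iv (k + 1) m, (w ⬝ᵥ F (k + 1) x y) ^ 2 :=
        sum_congr rfl fun y hy => by rw [e2 y hy]
      rw [s1, s2]
      rw [sum_iv_two' k m fun y => (w ⬝ᵥ lowG Q Pr F (k + 1) x y) ^ 2,
        sum_iv_two' k m fun y => (w ⬝ᵥ F (k + 1) x y) ^ 2]
      have hn' := mem_child (by omega) hn
      have hm' := mem_child (by omega) hm
      rcases mem_half hx with hx' | hx'
      · exact add_le_add (ih (by omega) _ hn'.1 _ hm'.1 x hx') (ih (by omega) _ hn'.1 _ hm'.2 x hx')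
      · exact add_le_add (ih (by omega) _ hn'.2 _ hm'.1 x hx') (ih (by omega) _ hn'.2 _ hm'.2 x hx')

end generic

/-! ### Columns of the weighted cut -/

/-- diagonal entry of the Gram matrix as a form -/
theorem GQ_diag (k : ℕ) (b : ℤ → ℤ → κ → ℝ) (n m : ℤ) (j : Ix k) :
    (Pi.single j (1 : ℝ) : Ix k → ℝ) ⬝ᵥ GQ k b n m *ᵥ (Pi.single j (1 : ℝ)) =
      ((2 : ℝ) ^ k * 2 ^ k)⁻¹ *
        ∑ x ∈ iv k n, b x (2 ^ k * m + val k j) ⬝ᵥ b x (2 ^ k * m + val k j) := by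
  classical
  rw [mulVec_single_one, single_dotProduct, one_mul]
  show GQ k b n m j j = _
  unfold GQ QW
  congr 1
  refine sum_congr rfl fun x _ => ?_
  congr 1
  exact one_mulVec _

variable [DecidableEq κ]

/-- the weighted Gram matrix is at most `(√l)⁻¹` times the Gram matrix -/
theorem QK_le_GQ {l : ℝ} {N : ℕ} {G K : ℤ → ℕ → ℤ → Matrix κ κ ℝ}
    (h : ∀ x, H420.Tr l N (G x) (K x)) (b : ℤ → ℤ → κ → ℝ) (k : ℕ) (n m : ℤ) (v : Ix k → ℝ) :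
    v ⬝ᵥ QK b K k k n m *ᵥ v ≤ (√l)⁻¹ * (v ⬝ᵥ GQ k b n m *ᵥ v) := by
  set w : ℤ → ℝ := fun y => ∑ j : Ix k, if 2 ^ k * m + (val k j : ℤ) = y then v j else 0 with hw
  have hwj : ∀ j : Ix k, w (2 ^ k * m + val k j) = v j := by
    intro j
    rw [hw]
    beta_reduce
    rw [sum_eq_single j]
    · rw [if_pos rfl]
    · intro j' _ hj'
      rw [if_neg]
      intro he
      apply hj'
      apply H205.val_inj
      have : ((val k j' : ℕ) : ℤ) = (val k j : ℕ) := by linarith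
      exact_mod_cast this
    · intro h
      exact absurd (mem_univ _) h
  have hv : v = fun j : Ix k => w (2 ^ k * m + val k j) := by
    funext j
    rw [hwj]
  have h1 := QK_form K b k n m w
  rw [← hv] at h1
  have hg : ∀ x, (∑ y ∈ iv k m, w y • b x y) ⬝ᵥ (K x k m)⁻¹ *ᵥ (∑ y ∈ iv k m, w y • b x y) ≤
      (√l)⁻¹ * ((∑ y ∈ iv k m, w y • b x y) ⬝ᵥ (∑ y ∈ iv k m, w y • b x y)) := by
    intro x
    have h3 := H420.quad_nonneg (H420.inv_le (h x).l_pos ((h x).psG k m) ((h x).pdK k m)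
      ((h x).sq k m)) (∑ y ∈ iv k m, w y • b x y)
    rw [sub_mulVec, dotProduct_sub, smul_mulVec, one_mulVec, dotProduct_smul, smul_eq_mul] at h3
    linarith
  have h2 : v ⬝ᵥ GQ k b n m *ᵥ v = ((2 : ℝ) ^ k * 2 ^ k)⁻¹ *
      ∑ x ∈ iv k n, (∑ y ∈ iv k m, w y • b x y) ⬝ᵥ (∑ y ∈ iv k m, w y • b x y) := by
    have h4 := QK_form (fun _ _ _ => (1 : Matrix κ κ ℝ)) b k n m w
    rw [← hv] at h4
    have e1 : QK b (fun _ _ _ => (1 : Matrix κ κ ℝ)) k k n m = GQ k b n m := by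
      rw [GQ_eq]
      unfold QK
      congr 1
      funext x
      exact inv_one
    rw [e1] at h4
    rw [h4]
    congr 1
    refine sum_congr rfl fun x _ => ?_
    rw [inv_one, one_mulVec]
  rw [h1, h2, ← mul_assoc, mul_comm (√l)⁻¹, mul_assoc]
  refine mul_le_mul_of_nonneg_left ?_ (by positivity)
  rw [mul_sum]
  exact sum_le_sum fun x _ => hg x

/-- **a column of the low part of the weighted cut on an affected square** -/
theorem lowW_col_on {Q : ℕ → ℤ → ℤ → Prop} {F : ℕ → ℤ → ℤ → κ → ℝ} {l : ℝ} {N : ℕ}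
    {G K : ℤ → ℕ → ℤ → Matrix κ κ ℝ} (h : ∀ x, H420.Tr l N (G x) (K x)) {c q : ℝ} (hc : 0 < c)
    (hq : 0 ≤ q) {k : ℕ} {n m : ℤ} (hQ : Q k n m) (hcap : CapS q k k (F (k + 1)) n m) {y : ℤ}
    (hy : y ∈ iv k m) :
    ∑ x ∈ iv k n, lowW Q K c F (k + 1) x y ⬝ᵥ lowW Q K c F (k + 1) x y ≤
      2 * (1 + (q / (√l * c)) ^ 2) * ∑ x ∈ iv k n, F (k + 1) x y ⬝ᵥ F (k + 1) x y := by
  have hl : 0 < √l := Real.sqrt_pos.2 (h 0).l_pos
  obtain ⟨j, hj⟩ : ∃ j : Ix k, 2 ^ k * m + (val k j : ℤ) = y := by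
    by_contra hne
    push Not at hne
    have h1 := H588.sum_iv k m fun y' => if y' = y then (1 : ℝ) else 0
    rw [sum_eq_single_of_mem y hy fun b _ hb => if_neg hb, if_pos rfl,
      sum_eq_zero fun j _ => if_neg (hne j)] at h1
    exact one_ne_zero h1
  subst hj
  have hWp : (QK (F (k + 1)) K k k n m).PosSemidef := QKs_psd (fun x k m => (h x).pdK k m) n m
  have hP : prW K c F k n m = lowP hWp.1 c := hcut_eq _ c
  have e : GQ k (lowW Q K c F (k + 1)) n m =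
      lowP hWp.1 c * GQ k (F (k + 1)) n m * lowP hWp.1 c := by
    rw [← hP]
    exact QW_lowG (F := F) (Pr := prW K c F) hQ (prW_tr K c F k n m) (Subset.refl (iv k n)) _
  have h1 := low_diag (GQ_psd k (F (k + 1)) n m) hWp hc (inv_nonneg.2 hl.le) hq
    (QK_le_GQ h (F (k + 1)) k n m) (capS_form hcap) (Pi.single j (1 : ℝ))
  rw [← e, GQ_diag, GQ_diag, ← mul_assoc, mul_comm (2 * (1 + ((√l)⁻¹ * q / c) ^ 2)), mul_assoc]
    at h1
  have hp : (0 : ℝ) < (2 ^ k * 2 ^ k)⁻¹ := by positivity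
  have h2 := le_of_mul_le_mul_left h1 hp
  have e3 : (√l)⁻¹ * q / c = q / (√l * c) := by
    field_simp
  rw [e3] at h2
  exact h2

/-- **COLUMNS OF THE LOW PART OF THE WEIGHTED CUT ON EVERY SQUARE OF THE ROOT** -/
theorem lowW_col {Q : ℕ → ℤ → ℤ → Prop} {F : ℕ → ℤ → ℤ → κ → ℝ} {l : ℝ} {N M : ℕ}
    {G K : ℤ → ℕ → ℤ → Matrix κ κ ℝ} (h : ∀ x, H420.Tr l M (G x) (K x)) {c q : ℝ} (hc : 0 < c)
    (hq : 0 ≤ q) {R S : ℤ} (hF : ∀ l, Path N R S Q (fun k x y => F k x y l))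
    (hQ0 : ∀ n m, Q 0 n m) (hcap : ∀ k n m, Q k n m → CapS q k k (F (k + 1)) n m) :
    ∀ k < N, ∀ n ∈ iv (N - k) R, ∀ m ∈ iv (N - k) S, ∀ y ∈ iv k m,
      ∑ x ∈ iv k n, lowW Q K c F (k + 1) x y ⬝ᵥ lowW Q K c F (k + 1) x y ≤
        2 * (1 + (q / (√l * c)) ^ 2) * ∑ x ∈ iv k n, F (k + 1) x y ⬝ᵥ F (k + 1) x y :=
  lowG_col hF hQ0 fun k _ n _ m _ hQ _ hy => lowW_col_on h hc hq hQ (hcap k n m hQ) hy

/-- **ROWS OF THE LOW PART OF THE WEIGHTED CUT ON EVERY SQUARE OF THE ROOT** -/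
theorem lowW_row {Q : ℕ → ℤ → ℤ → Prop} {F : ℕ → ℤ → ℤ → κ → ℝ} {N : ℕ}
    {K : ℤ → ℕ → ℤ → Matrix κ κ ℝ} {c : ℝ} {R S : ℤ}
    (hF : ∀ l, Path N R S Q (fun k x y => F k x y l)) (hQ0 : ∀ n m, Q 0 n m) (w : κ → ℝ) :
    ∀ k < N, ∀ n ∈ iv (N - k) R, ∀ m ∈ iv (N - k) S, ∀ x ∈ iv k n,
      ∑ y ∈ iv k m, (w ⬝ᵥ lowW Q K c F (k + 1) x y) ^ 2 ≤
        ∑ y ∈ iv k m, (w ⬝ᵥ F (k + 1) x y) ^ 2 :=
  lowG_row (prW_tr K c F) (prW_idem K c F) hF hQ0 w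

/-- the cap without weight is inherited on every square -/
theorem lowW_capS {Q : ℕ → ℤ → ℤ → Prop} {F : ℕ → ℤ → ℤ → κ → ℝ}
    {K : ℤ → ℕ → ℤ → Matrix κ κ ℝ} {c q : ℝ} (hq : 0 ≤ q) (hQ0 : ∀ n m, Q 0 n m)
    (hcap : ∀ k n m, Q k n m → CapS q k k (F (k + 1)) n m) (k : ℕ) (n m : ℤ) :
    CapS q k k (lowW Q K c F (k + 1)) n m :=
  capS_lowG hq (prW_tr K c F) (prW_idem K c F) hQ0 hcap k n m

end

end Vale.Agent.P141.H80
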