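import Vale.Agent.P141.H447.NumI2
import Vale.Agent.P141.H681.ThMax

/-!
# P141, line (A), TI: affected cells against the largest form of the coarser scales

* `card_lo` : the affected times with count at most `lam`;
* `aff_sup` : weights `W k x₀` with cell sums `≤ e 2 ^ k` on affected cells against a family `X k x₀`
  with a cellwise majorant `Φ`, the tail by the count;
* `Xl` : the largest form at the scales `a ≥ k`.
-/

namespace Vale.Agent.P141.H80

open Finset Matrix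
open Vale.Agent.P141.PL (iv ix mem_iv)
open Vale.Agent.P141.H224 (cq cq_yes cq_ix card_tl sum_W_cell)
open Vale.Agent.P141.H447 (Yc le_Yc iv_ne)

noncomputable section

open scoped Classical

section aff

variable {n : ℕ} {a : ℕ → ℤ → Prop} {lam : ℕ}

/-- the affected times with count at most `lam` -/
theorem card_lo (x : ℤ) : ∑ l ∈ range n, (if a l (ix l x) ∧ cq a n l x ≤ lam then (1 : ℝ) else 0) ≤
    lam := by
  have h0 := card_tl (a := a) (n := n) (lam := 0) x (Nat.zero_le n)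
  have h1 := card_tl (a := a) (n := n) (lam := lam) x (Nat.zero_le n)
  rw [← range_eq_Ico] at h0 h1
  have h2 : ∑ l ∈ range n, (if a l (ix l x) ∧ 0 < cq a n l x then (1 : ℝ) else 0) =
      ∑ l ∈ range n, (if a l (ix l x) ∧ cq a n l x ≤ lam then (1 : ℝ) else 0) +
      ∑ l ∈ range n, (if a l (ix l x) ∧ lam < cq a n l x then (1 : ℝ) else 0) := by
    rw [← sum_add_distrib]
    refine sum_congr rfl fun l hl => ?_
    by_cases h : a l (ix l x)
    · have h3 := cq_yes (mem_range.1 hl) h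
      by_cases h4 : cq a n l x ≤ lam
      · rw [if_pos ⟨h, by omega⟩, if_pos ⟨h, h4⟩, if_neg (fun h5 => by omega), add_zero]
      · rw [if_pos ⟨h, by omega⟩, if_neg (fun h5 => h4 h5.2), if_pos ⟨h, by omega⟩, zero_add]
    · rw [if_neg (fun h5 => h h5.1), if_neg (fun h5 => h h5.1), if_neg (fun h5 => h h5.1), add_zero]
  rw [h0, h1] at h2
  have h3 : ((cq a n 0 x - 0 : ℕ) : ℝ) ≤ lam + ((cq a n 0 x - lam : ℕ) : ℝ) := by
    have : cq a n 0 x - 0 ≤ lam + (cq a n 0 x - lam) := by omega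
    exact_mod_cast this
  linarith

/-- **Affected cells with weights against a cellwise majorant.** -/
theorem aff_sup {T : ℤ} {W X : ℕ → ℤ → ℝ} {Φ : ℤ → ℝ} {e cp : ℝ} (he : 0 ≤ e)
    (hX0 : ∀ k x, 0 ≤ X k x) (hXc : ∀ k < n, ∀ x, X k x ≤ cp) (hΦ0 : ∀ x, 0 ≤ Φ x)
    (hΦ : ∀ k < n, ∀ x, ∀ x' ∈ iv k (ix k x), X k x' ≤ Φ x) (hW0 : ∀ k x, 0 ≤ W k x)
    (hW : ∀ k < n, ∀ j, ∑ x ∈ iv k j, W k x ≤ e * 2 ^ k) (lam : ℕ) :
    ∑ x0 ∈ iv n T, ∑ k ∈ range n, (if a k (ix k x0) then W k x0 * X k x0 else 0) ≤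
      lam * e * ∑ x0 ∈ iv n T, Φ x0 +
        e * (cp * ∑ x0 ∈ iv n T, ((cq a n 0 x0 - lam : ℕ) : ℝ)) := by
  have h1 : ∀ k ∈ range n, ∑ x0 ∈ iv n T, (if a k (ix k x0) then W k x0 * X k x0 else 0) ≤
      e * ∑ x0 ∈ iv n T, (if a k (ix k x0) ∧ cq a n k x0 ≤ lam then Φ x0 else 0) +
      e * ∑ x0 ∈ iv n T, (if a k (ix k x0) ∧ lam < cq a n k x0 then cp else 0) := by
    intro k hk
    have hk' := mem_range.1 hk
    have hcp : 0 ≤ cp := (hX0 k 0).trans (hXc k hk' 0)
    have g1 := sum_W_cell hk'.le (hW k hk') T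
      (D := fun x => if a k (ix k x) ∧ cq a n k x ≤ lam then Yc X k (ix k x) else 0)
      (fun x => by
        split_ifs
        · exact (hX0 k x).trans (le_Yc X k x)
        · exact le_rfl)
      (fun x y hxy => by simp only [hxy, cq_ix hxy])
    have g2 := sum_W_cell hk'.le (hW k hk') T
      (D := fun x => if a k (ix k x) ∧ lam < cq a n k x then cp else 0)
      (fun x => by
        split_ifs
        · exact hcp
        · exact le_rfl)
      (fun x y hxy => by simp only [hxy, cq_ix hxy])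
    have g3 : ∑ x0 ∈ iv n T, (if a k (ix k x0) ∧ cq a n k x0 ≤ lam then Yc X k (ix k x0) else 0) ≤
        ∑ x0 ∈ iv n T, (if a k (ix k x0) ∧ cq a n k x0 ≤ lam then Φ x0 else 0) := by
      refine sum_le_sum fun x _ => ?_
      split_ifs
      · exact sup'_le (iv_ne _ _) _ fun x' hx' => hΦ k hk' x x' hx'
      · exact le_rfl
    have g4 : ∑ x0 ∈ iv n T, (if a k (ix k x0) then W k x0 * X k x0 else 0) ≤
        ∑ x0 ∈ iv n T, W k x0 * (if a k (ix k x0) ∧ cq a n k x0 ≤ lam then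
          Yc X k (ix k x0) else 0) +
        ∑ x0 ∈ iv n T, W k x0 * (if a k (ix k x0) ∧ lam < cq a n k x0 then cp else 0) := by
      rw [← sum_add_distrib]
      refine sum_le_sum fun x _ => ?_
      have k1 := mul_le_mul_of_nonneg_left (le_Yc X k x) (hW0 k x)
      have k2 := mul_le_mul_of_nonneg_left (hXc k hk' x) (hW0 k x)
      by_cases h : a k (ix k x)
      · by_cases h4 : cq a n k x ≤ lam
        · rw [if_pos h, if_pos ⟨h, h4⟩, if_neg (fun h5 => by omega), mul_zero, add_zero]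
          exact k1
        · rw [if_pos h, if_neg (fun h5 => h4 h5.2), if_pos ⟨h, by omega⟩, mul_zero, zero_add]
          exact k2
      · rw [if_neg h, if_neg (fun h5 => h h5.1), if_neg (fun h5 => h h5.1), mul_zero, add_zero]
    refine g4.trans (add_le_add (g1.trans (mul_le_mul_of_nonneg_left g3 he)) g2)
  rw [sum_comm]
  refine (sum_le_sum h1).trans ?_
  rw [sum_add_distrib, ← mul_sum, ← mul_sum, sum_comm (s := range n),
    sum_comm (s := range n)]
  have h2 : ∀ x ∈ iv n T, ∑ k ∈ range n, (if a k (ix k x) ∧ cq a n k x ≤ lam then Φ x else 0) ≤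
      lam * Φ x := by
    intro x _
    have h3 := mul_le_mul_of_nonneg_right (card_lo (a := a) (n := n) (lam := lam) x) (hΦ0 x)
    rw [sum_mul] at h3
    refine le_trans (le_of_eq (sum_congr rfl fun k _ => ?_)) h3
    rw [ite_mul, one_mul, zero_mul]
  have h4 : ∀ x ∈ iv n T, ∑ k ∈ range n, (if a k (ix k x) ∧ lam < cq a n k x then cp else 0) =
      cp * ((cq a n 0 x - lam : ℕ) : ℝ) := by
    intro x _
    have h3 := card_tl (a := a) (n := n) (lam := lam) x (Nat.zero_le n)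
    rw [← range_eq_Ico] at h3
    rw [← h3, mul_sum]
    exact sum_congr rfl fun k _ => by rw [mul_ite, mul_one, mul_zero]
  rw [sum_congr rfl h4, ← mul_sum]
  have h5 := mul_le_mul_of_nonneg_left (sum_le_sum h2) he
  rw [← mul_sum] at h5
  calc _ ≤ e * (lam * ∑ x ∈ iv n T, Φ x) +
        e * (cp * ∑ x0 ∈ iv n T, ((cq a n 0 x0 - lam : ℕ) : ℝ)) := add_le_add h5 le_rfl
    _ = _ := by ring

end aff

/-! ### The largest form of the coarser scales -/

/-- the largest value of `f a x` over `k ≤ a ≤ K` -/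
def Xl (f : ℕ → ℤ → ℝ) (K k : ℕ) (x : ℤ) : ℝ :=
  (insert k (Icc k K)).sup' (insert_nonempty _ _) fun a => f a x

theorem le_Xl (f : ℕ → ℤ → ℝ) {K k a : ℕ} (h1 : k ≤ a) (h2 : a ≤ K) (x : ℤ) :
    f a x ≤ Xl f K k x :=
  le_sup' (fun a => f a x) (mem_insert_of_mem (mem_Icc.2 ⟨h1, h2⟩))

theorem Xl_nonneg {f : ℕ → ℤ → ℝ} (h : ∀ a x, 0 ≤ f a x) (K k : ℕ) (x : ℤ) : 0 ≤ Xl f K k x :=
  (h k x).trans (le_sup' (fun a => f a x) (mem_insert_self _ _))

theorem Xl_le {f : ℕ → ℤ → ℝ} {K k : ℕ} (hk : k ≤ K) {x : ℤ} {B : ℝ}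
    (h : ∀ a, k ≤ a → a ≤ K → f a x ≤ B) : Xl f K k x ≤ B := by
  refine sup'_le _ _ fun a ha => ?_
  rw [mem_insert, mem_Icc] at ha
  rcases ha with rfl | ha
  · exact h a le_rfl hk
  · exact h a ha.1 ha.2

end

end Vale.Agent.P141.H80
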