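import Vale.Agent.P141.H80.InstL

/-!
# P141, line (A), gap part: the leaf `MkT ZLight`
-/

namespace Vale.Agent.P141.H80

open Finset Matrix Vale.Agent.P141.PL
open Vale.Agent.P141.H48 (US ES BSl)
open Vale.Agent.P141.H331 (MkT ZLight lsz cCz)

noncomputable section

open scoped Classical

/-- **Field 5 of the gap part**: the light pair of the cut families. -/
theorem mkT_ZLight : MkT ZLight := by
  unfold H331.MkT H401.PartQ H401.PartY
  intro a ha ha1
  refine ⟨1, one_pos, fun e0 he0 _ => ⟨1, one_pos, fun k8 hk8 _ => ⟨1, one_pos,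
    fun k3 hk3 _ => ⟨1, e0, 1, 1, one_pos, he0, one_pos, one_pos,
    fun c hc hcc d hd _ Kt e cP L hKt he hcP hL => ?_⟩⟩⟩⟩
  refine ⟨592 * ((cP + 2) * e) + 1176 * (cP + 2) + 80 * (cP + 2) ^ 2 + 3 * L, ?_, 0, le_rfl, ?_⟩
  · have h1 : 0 ≤ (cP + 2) * e := by positivity
    have h2 : 0 ≤ 80 * (cP + 2) ^ 2 := by positivity
    linarith
  intro t ht ht1 n ez F1 F2 F3 _ _ _ o ho K hKn x ι _ _ s r U g u v hs hr hcls Q1 Q2 Q3 _ q2 q3
    hez Lb el inj hm t0 _ j
  set p : H401.Num := ⟨a, e0, k8, k3, c, d, Kt, e, cP, L,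
    592 * ((cP + 2) * e) + 1176 * (cP + 2) + 80 * (cP + 2) ^ 2 + 3 * L, t⟩ with hp
  have hLm : 1 ≤ p.Lm := H401.Num.Lm_ge (p := p) ht ht1 hd.le
  have hr0 : 0 < r := by linarith
  have hS : 0 < √s := Real.sqrt_pos.2 hs
  have hcC : 0 < cCz p s := by
    unfold H331.cCz
    have : 0 < p.Lm * s := mul_pos (by linarith) hs
    positivity
  have hP : L * t ^ (2 - c) * √s ≤ p.L * p.lam s r := by
    have h1 : t ^ (2 - c) ≤ t ^ (2 - e0) :=
      Real.rpow_le_rpow_of_exponent_ge ht ht1 (by linarith)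
    have h2 : 1 ≤ r ^ e0 := Real.one_le_rpow hr he0.le
    have h3 : t ^ (2 - c) * √s ≤ t ^ (2 - e0) * √s * r ^ e0 := by
      have h4 : t ^ (2 - c) * √s ≤ t ^ (2 - e0) * √s := mul_le_mul_of_nonneg_right h1 hS.le
      have h5 : 0 ≤ t ^ (2 - e0) * √s := mul_nonneg (Real.rpow_nonneg ht.le _) hS.le
      exact h4.trans (le_mul_of_one_le_right h5 h2)
    rw [mul_assoc]
    exact mul_le_mul_of_nonneg_left h3 (by linarith)
  have hP0 : 0 ≤ L * t ^ (2 - c) * √s :=
    mul_nonneg (mul_nonneg (by linarith) (Real.rpow_nonneg ht.le _)) hS.le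
  have h := light_tile (p := p) (s := s) (r := r) inj hm hez ht hLm (by linarith : (0 : ℝ) ≤ e)
    hcP hs hr ho q3 q2 hKn hP0 hcls.toCls (by linarith : (0 : ℝ) ≤ L) hP (p.al U K) t0 hcC j
  refine h.trans (mul_le_mul_of_nonneg_left ?_ (by positivity))
  have hb : 0 < p.be s r := H401.Num.be_pos (p := p) ht hs hr
  have hl : p.Lm ≤ lsz p := by
    show t ^ (-d) ≤ t ^ (-(8 * (c + d)))
    exact Real.rpow_le_rpow_of_exponent_ge ht ht1 (by linarith)
  have h0 : 0 ≤ 592 * ((cP + 2) * e) + 1176 * (cP + 2) + 80 * (cP + 2) ^ 2 + 3 * L := by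
    have h1 : 0 ≤ (cP + 2) * e := by positivity
    have h2 : 0 ≤ 80 * (cP + 2) ^ 2 := by positivity
    linarith
  refine mul_le_mul_of_nonneg_left ?_ h0
  refine mul_le_mul_of_nonneg_right (mul_le_mul_of_nonneg_right hl ?_) (by positivity)
  positivity

end

end Vale.Agent.P141.H80
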