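import Vale.Agent.P141.H80.LightCut
import Vale.Agent.P141.H874.LightI

/-!
# The cap of the light slot after the weighted static cut, matrix form

`cap_LP`: `√l c - LP l K (lowW Q K c F (k + 1)) k (k + r) n m` is positive semidefinite at every
node.  `lowW_sub`: the low path is a `SubPath`.
-/

namespace Vale.Agent.P141.H80

open Finset Matrix Vale.Agent.P141.PL Vale.Agent.P141.H103 Vale.Agent.P141.H205
open Vale.Agent.P075 (Ix val)
open Vale.Agent.P141.H736 (Path Agree)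
open Vale.Agent.P141.H874 (LP LM BM)
open Vale.Agent.P141.H588G (S2)

noncomputable section

variable {κ : Type*} [Fintype κ] [DecidableEq κ]

variable {l : ℝ} {N : ℕ} {G K : ℤ → ℕ → ℤ → Matrix κ κ ℝ}

/-- the kernel as a sum of products -/
theorem LM_sum (h : ∀ x, H420.Tr l N (G x) (K x)) (b : ℤ → ℤ → κ → ℝ) (a : ℕ) (n x x' : ℤ) :
    LM l K b a n x x' = (l * ((2 : ℝ) ^ a)⁻¹) • ∑ y ∈ iv a n,
      vecMulVec ((K x a n)⁻¹ *ᵥ b x y) ((K x' a n)⁻¹ *ᵥ b x' y) := by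
  unfold LM XR
  rw [Matrix.mul_smul, Matrix.smul_mul, smul_smul, Finset.mul_sum, Finset.sum_mul]
  congr 1
  refine Finset.sum_congr rfl fun y _ => ?_
  rw [mul_vecMulVec, vecMulVec_mul]
  congr 1
  rw [← mulVec_transpose, H874.herm_tr ((h x').pdK a n).isHermitian.inv]

/-- **quadratic form of the light slot** -/
theorem LP_form (h : ∀ x, H420.Tr l N (G x) (K x)) (b : ℤ → ℤ → κ → ℝ) (k a : ℕ) (n m : ℤ)
    (z : ℤ → κ → ℝ) :
    (fun p : Ix k × κ => z (2 ^ k * m + val k p.1) p.2) ⬝ᵥ LP l K b k a n m *ᵥ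
        (fun p : Ix k × κ => z (2 ^ k * m + val k p.1) p.2) =
      ((2 : ℝ) ^ k)⁻¹ * ((2 : ℝ) ^ a)⁻¹ * (l * ∑ y ∈ iv a n,
        (∑ x ∈ iv k m, ((K x a n)⁻¹ *ᵥ z x) ⬝ᵥ b x y) ^ 2) := by
  have e : LP l K b k a n m = (((2 : ℝ) ^ k)⁻¹ * (l * ((2 : ℝ) ^ a)⁻¹)) • ∑ y ∈ iv a n,
      vecMulVec
        (fun p : Ix k × κ => ((K (2 ^ k * m + val k p.1) a n)⁻¹ *ᵥ
          b (2 ^ k * m + val k p.1) y) p.2)
        (fun p : Ix k × κ => ((K (2 ^ k * m + val k p.1) a n)⁻¹ *ᵥ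
          b (2 ^ k * m + val k p.1) y) p.2) := by
    ext p q
    show ((2 : ℝ) ^ k)⁻¹ * LM l K b a n (2 ^ k * m + val k p.1) (2 ^ k * m + val k q.1) p.2 q.2 = _
    rw [LM_sum h]
    simp only [Matrix.smul_apply, Matrix.sum_apply, vecMulVec_apply, smul_eq_mul]
    ring
  rw [e, smul_mulVec, dotProduct_smul, smul_eq_mul, sum_mulVec, dotProduct_sum]
  have e2 : ∀ y, (fun p : Ix k × κ => z (2 ^ k * m + val k p.1) p.2) ⬝ᵥ
      (vecMulVec
        (fun p : Ix k × κ => ((K (2 ^ k * m + val k p.1) a n)⁻¹ *ᵥ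
          b (2 ^ k * m + val k p.1) y) p.2)
        (fun p : Ix k × κ => ((K (2 ^ k * m + val k p.1) a n)⁻¹ *ᵥ
          b (2 ^ k * m + val k p.1) y) p.2)) *ᵥ
        (fun p : Ix k × κ => z (2 ^ k * m + val k p.1) p.2) =
      (∑ x ∈ iv k m, ((K x a n)⁻¹ *ᵥ z x) ⬝ᵥ b x y) ^ 2 := by
    intro y
    set g : Ix k × κ → ℝ := fun p => ((K (2 ^ k * m + val k p.1) a n)⁻¹ *ᵥ
          b (2 ^ k * m + val k p.1) y) p.2 with hg
    set v : Ix k × κ → ℝ := fun p => z (2 ^ k * m + val k p.1) p.2 with hv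
    have f1 : v ⬝ᵥ (vecMulVec g g) *ᵥ v = (v ⬝ᵥ g) ^ 2 := by
      rw [vecMulVec_mulVec, dotProduct_smul, dotProduct_comm g v]
      simp only [MulOpposite.smul_eq_mul_unop, MulOpposite.unop_op]
      ring
    have f2 : v ⬝ᵥ g = ∑ x ∈ iv k m, ((K x a n)⁻¹ *ᵥ z x) ⬝ᵥ b x y := by
      rw [H588.sum_iv, dotProduct, Fintype.sum_prod_type]
      refine Finset.sum_congr rfl fun j _ => ?_
      have f3 : ((K (2 ^ k * m + val k j) a n)⁻¹ *ᵥ z (2 ^ k * m + val k j)) ⬝ᵥ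
          b (2 ^ k * m + val k j) y = z (2 ^ k * m + val k j) ⬝ᵥ
            (K (2 ^ k * m + val k j) a n)⁻¹ *ᵥ b (2 ^ k * m + val k j) y := by
        rw [dotProduct_mulVec, ← mulVec_transpose,
          H874.herm_tr ((h _).pdK a n).isHermitian.inv]
      rw [f3]
      rfl
    rw [f1, f2]
  simp only [e2]
  ring

/-- extension of a block vector -/
def exv (k : ℕ) (m : ℤ) (v : Ix k × κ → ℝ) : ℤ → κ → ℝ := fun x α =>
  ∑ j : Ix k, if 2 ^ k * m + (val k j : ℤ) = x then v (j, α) else 0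

omit [Fintype κ] [DecidableEq κ] in
theorem exv_val (k : ℕ) (m : ℤ) (v : Ix k × κ → ℝ) (j : Ix k) (α : κ) :
    exv k m v (2 ^ k * m + val k j) α = v (j, α) := by
  unfold exv
  rw [sum_eq_single j]
  · rw [if_pos rfl]
  · intro j' _ hj'
    rw [if_neg]
    intro he
    apply hj'
    apply H205.val_inj
    have : ((val k j' : ℕ) : ℤ) = (val k j : ℕ) := by linarith
    exact_mod_cast this
  · intro h
    exact absurd (mem_univ _) h

/-- **THE CAP OF THE LIGHT SLOT, MATRIX FORM**: hub cell `m` of scale `k`, outer cell `n` of scale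
`k + r ≤ N` -/
theorem cap_LP {Q : ℕ → ℤ → ℤ → Prop} {F : ℕ → ℤ → ℤ → κ → ℝ} {c : ℝ} (hc : 0 < c)
    (h : ∀ x, H420.Tr l N (G x) (K x)) (hQ0 : ∀ n m, Q 0 n m) {k r : ℕ} (hr : k + r ≤ N)
    (n m : ℤ) :
    ((√l * c) • (1 : Matrix (Ix k × κ) (Ix k × κ) ℝ) -
      LP l K (lowW Q K c F (k + 1)) k (k + r) n m).PosSemidef := by
  refine .of_dotProduct_mulVec_nonneg ?_ fun v => ?_
  · have hs : (LP l K (lowW Q K c F (k + 1)) k (k + r) n m).IsHermitian := by
      rw [IsHermitian, conjTranspose_eq_transpose_of_trivial]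
      exact H874.LP_symm h _ k (k + r) n m
    exact (isHermitian_one.smul (by simp [IsSelfAdjoint])).sub hs
  · have hv : v = fun p : Ix k × κ => exv k m v (2 ^ k * m + val k p.1) p.2 := by
      funext p
      rw [exv_val]
    have h1 := cap_node (F := F) hc h hQ0 hr m n (exv k m v)
    have h2 := LP_form h (lowW Q K c F (k + 1)) k (k + r) n m (exv k m v)
    rw [← hv] at h2
    have h3 : ∑ x ∈ iv k m, exv k m v x ⬝ᵥ exv k m v x = v ⬝ᵥ v := by
      rw [H588.sum_iv]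
      conv_rhs => rw [dotProduct, Fintype.sum_prod_type]
      refine Finset.sum_congr rfl fun j _ => ?_
      rw [dotProduct]
      exact Finset.sum_congr rfl fun α _ => by rw [exv_val]
    rw [h3] at h1
    rw [star_trivial, sub_mulVec, dotProduct_sub, smul_mulVec, one_mulVec, dotProduct_smul,
      smul_eq_mul, h2, sub_nonneg]
    have hp : (0 : ℝ) < 2 ^ k * 2 ^ (k + r) := by positivity
    rw [← mul_inv, inv_mul_le_iff₀ hp]
    refine h1.trans (le_of_eq ?_)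
    ring

end

end Vale.Agent.P141.H80
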