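import Vale.Agent.P141.H64.HP3
import Vale.Agent.P141.H46.LightK
import Vale.Agent.P141.H999.LightX
import Vale.Agent.P141.H874.LightC
import Vale.Agent.P141.H588G.CarlL
import Vale.Agent.P141.H331.SkelTZ

/-!
# P141, line (A), gap part: the numbers of the light pair for the cut families

`sum_yS`, `agr_path` : charges and agreements from `H205.FamK`;
`famK_cb`, `famK_mC` : the families `cb` and `mC`; `dx_le` : the defect of the light pair;
`light_tile` : the light pair of one tile.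
-/

namespace Vale.Agent.P141.H80

open Finset Matrix Vale.Agent.P141.PL Vale.Agent.P141.PL.H103 Vale.Agent.P141.H103
open Vale.Agent.P075 (Ix val phi)
open Vale.Agent.P141.PL.H588 (hd)
open Vale.Agent.P141.PL.H804 (bx3)
open Vale.Agent.P141.PL.H315 (Tri A2)
open Vale.Agent.P141.H736 (Path)
open Vale.Agent.P141.H958 (Aff mem_Aff sum_Aff PackQ lbs)
open Vale.Agent.P141.H338 (cu lf)
open Vale.Agent.P141.H958 (encR fl lv)
open Vale.Agent.P141.PL.H804 (bl)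
open Vale.Agent.P141.H205 (ownK pwrK FamK)
open Vale.Agent.P141.H48 (US ES BSl sst Qth)
open Vale.Agent.P141.H305 (ClsM kapM Cls)
open Vale.Agent.P141.H677 (KT GT fb fC kF cP tr_T)
open Vale.Agent.P141.H874 Vale.Agent.P141.H46
open Vale.Agent.P141.H822 (SV VL)
open Vale.Agent.P141.H511 (BL CL)
open Vale.Agent.P141.H401 (mC mb cb b1 qB qC)

noncomputable section

open scoped Classical

set_option linter.unusedSectionVars false

section gen

variable {κ : Type*} [Fintype κ]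

/-- the charges of a family -/
theorem sum_yS (N : ℕ) (R S : ℤ) (Q : ℕ → ℤ → ℤ → Prop) (b : ℕ → ℤ → ℤ → κ → ℝ) :
    ∑ k ∈ range N, yS N S R k 1 (fun n m => Q k m n) (b (k + 1)) = pwrK N S R Q b := by
  unfold H205.pwrK
  rw [sum_Aff]
  refine sum_congr rfl fun k _ => ?_
  rw [sum_comm]
  unfold H46.yS H46.ms
  simp only [one_mul]

/-- agreement from paths -/
theorem agr_path {N : ℕ} {R S : ℤ} {Q : ℕ → ℤ → ℤ → Prop} {b : ℕ → ℤ → ℤ → κ → ℝ}
    (h : ∀ l, Path N S R Q (fun k x y => b k x y l)) :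
    ∀ k, k < N → ∀ n ∈ iv (N - k) R, ∀ m ∈ iv (N - k) S, ¬ Q k m n →
      ∀ x ∈ iv k m, ∀ y ∈ iv k n, b (k + 1) x y = b k x y := by
  intro k hk n hn m hm hq x hx y hy
  funext l
  exact h l k hk m hm n hn hq x hx y hy

/-- a multiple of a path -/
theorem path_smul {N : ℕ} {R S : ℤ} {Q : ℕ → ℤ → ℤ → Prop} {b : ℕ → ℤ → ℤ → κ → ℝ} (a : ℝ) {l : κ}
    (h : Path N S R Q (fun k x y => b k x y l)) :
    Path N S R Q (fun k x y => (a • b k x y) l) := by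
  intro k hk n hn m hm hq x hx y hy
  have h1 := h k hk n hn m hm hq x hx y hy
  simp only [Pi.smul_apply, smul_eq_mul] at h1 ⊢
  rw [h1]

/-- the power of a multiple -/
theorem pwrK_smul (N : ℕ) (R S : ℤ) (Q : ℕ → ℤ → ℤ → Prop) (b : ℕ → ℤ → ℤ → κ → ℝ) (a : ℝ) :
    pwrK N R S Q (fun k x y => a • b k x y) = a ^ 2 * pwrK N R S Q b := by
  unfold H205.pwrK
  rw [mul_sum]
  refine sum_congr rfl fun i _ => ?_
  rw [mul_sum]
  refine sum_congr rfl fun x _ => ?_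
  rw [mul_sum]
  refine sum_congr rfl fun y _ => ?_
  rw [dotProduct_smul, smul_dotProduct, smul_eq_mul, smul_eq_mul]
  ring

end gen

/-! ### The cut families -/

section cls

variable {ι : Type} [Fintype ι] [DecidableEq ι] {p : H401.Num} {n K : ℕ} {s r P : ℝ} {U : Tri}
  {g : ℤ → ℤ → ℝ} {u v : ℤ → ℤ → ι → ℝ} {F2 F3 : ℕ → Pt → ℝ} {Q2 Q3 : ℕ → Pt → Prop} {x : Pt}

/-- **The family `cb`.** -/
theorem famK_cb (hLm : 1 ≤ p.Lm) (he : 0 ≤ p.e) (hcP : 0 ≤ p.cP) (h : BSl n p.e p.cP F3 Q3)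
    (hK : K ≤ n) (hc : Cls K x s r P U g u v) (t₀ : ℤ) :
    ∃ G, FamK K (cx K x).1 (cx K x).2.1 (iv K t₀) (fun x0 k n m => qB p U K Q3 k (ix k x0) n m)
      (cb p s r U K u F3 Q3) (p.cP + 2) G (4 * p.Lm * (p.cP + 2) * p.e * s * 8 ^ K) := by
  have hmb := H64.famK_mb (p := p) (u := u) hLm he hcP h hK hc t₀
  have hb1 := H64.famK_low (c := p.th s r ^ 2) hmb
  refine ⟨_, {
    path := fun x0 _ l => lowW_path K _ _ l
    zero := fun x0 _ => lowW_zero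
    pack := hb1.pack
    own := le_rfl
    pow := ?_ }⟩
  refine (sum_le_sum fun x0 _ => H64.pwrK_lowW).trans (hb1.pow.trans ?_)
  have h5 : (0 : ℝ) ≤ 4 * p.Lm * (p.cP + 2) * p.e := by
    have : 0 ≤ p.Lm := by linarith
    positivity
  exact mul_le_mul_of_nonneg_right (mul_le_mul_of_nonneg_left hc.U_u2 h5) (by positivity)

/-- **The family `mC`**, hub first. -/
theorem famK_mC {ez : ℝ} (hLm : 1 ≤ p.Lm) (he : 0 ≤ ez) (hcP : 0 ≤ p.cP)
    (h : BSl n ez p.cP F2 Q2) (hK : K ≤ n) (hc : Cls K x s r P U g u v) (t₀ : ℤ) :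
    ∃ G, FamK K (cx K x).1 (cx K x).2.2 (iv K t₀)
      (fun x0 k n m => qC p U K Q2 k (ix k x0) m n)
      (fun x0 k x z => mC p U K v F2 x0 k z x) (p.cP + 2) G
      (4 * p.Lm * (p.cP + 2) * ez * s * 8 ^ K) := by
  have h1 := H508.famK_C (v := v) (a := U.2.1) (F := F2) hLm he hcP h hK
    (x1 := x.1) (x3 := x.2.2) (fun w hw z hz => by
      rw [← H769.iv_pt] at hw hz
      exact ⟨(hc.U_v w hw z hz).1, hc.v_le w hw z hz⟩) t₀
  refine ⟨_, {
    path := h1.path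
    zero := h1.zero
    pack := h1.pack
    own := le_rfl
    pow := h1.pow.trans ?_ }⟩
  have h5 : (0 : ℝ) ≤ 4 * p.Lm * (p.cP + 2) * ez := by
    have : 0 ≤ p.Lm := by linarith
    positivity
  exact mul_le_mul_of_nonneg_right (mul_le_mul_of_nonneg_left hc.U_v2 h5) (by positivity)

/-- the root energy of `kF` along `x₀` at a plane -/
theorem line_kF {ez : ℝ} (h : BSl n ez p.cP F2 Q2) (hK : K ≤ n) (o : ℤ) (X : Finset ℤ) :
    ∀ j ∈ Icc 1 K, ∀ q x1 x3, ∑ i ∈ X with cP o i j = q,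
      kF p.Lm U.2.1 K F2 j (i, x1, x3) ^ 2 ≤ (2 * ez) * 2 ^ j := by
  intro j hj q x1 x3
  obtain ⟨k, rfl⟩ : ∃ k, j = k + 1 := ⟨j - 1, by have := (mem_Icc.1 hj).1; omega⟩
  have hk : k < n := by have := (mem_Icc.1 hj).2; omega
  have h1 : ∑ i ∈ X with cP o i (k + 1) = q, kF p.Lm U.2.1 K F2 (k + 1) (i, x1, x3) ^ 2 ≤
      ∑ i ∈ iv (k + 1) (o - 2 - q), F2 (k + 1) (i, x1, x3) ^ 2 := by
    refine (sum_le_sum (g := fun i => F2 (k + 1) (i, x1, x3) ^ 2) fun i _ => ?_).trans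
      (sum_le_sum_of_subset_of_nonneg ?_ fun _ _ _ => sq_nonneg _)
    · unfold H677.kF
      by_cases h0 : k + 1 = 0 ∨ sst p.Lm U.2.1 K (k + 1) x1 x3
      · rw [if_pos h0, zero_pow two_ne_zero]
        exact sq_nonneg _
      · rw [if_neg h0]
    · intro i hi
      rw [mem_filter] at hi
      rw [mem_iv]
      have h2 := hi.2
      unfold H677.cP at h2
      linarith
  refine h1.trans ?_
  rw [sum_iv_half]
  have h3 := h.l0 k hk (2 * (o - 2 - q)) x1 x3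
  have h4 := h.l0 k hk (2 * (o - 2 - q) + 1) x1 x3
  have h5 : (2 * ez) * 2 ^ (k + 1) = 2 * (ez * 2 ^ k + ez * 2 ^ k) := by rw [pow_succ]; ring
  have h6 : 0 ≤ ez * 2 ^ k := (sum_nonneg fun _ _ => sq_nonneg _).trans h3
  rw [h5]
  linarith

/-- the mass of `v` on the root square -/
theorem mass_v (hc : Cls K x s r P U g u v) :
    ∑ x1 ∈ iv K (cx K x).1, ∑ x3 ∈ iv K (cx K x).2.2, v x1 x3 ⬝ᵥ v x1 x3 ≤ 4 ^ K * s := by
  have h2 := hc.U_v2
  have h1 : ∑ x1 ∈ iv K (cx K x).1, ∑ x3 ∈ iv K (cx K x).2.2, v x1 x3 ⬝ᵥ v x1 x3 ≤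
      4 ^ K * A2 K U.2.1 x.1 x.2.2 := by
    have e : 4 ^ K * A2 K U.2.1 x.1 x.2.2 =
        ∑ x1 ∈ iv K (cx K x).1, ∑ x3 ∈ iv K (cx K x).2.2, U.2.1 (x1, x3) ^ 2 := by
      unfold A2 PL.H315.avg
      rw [H769.iv_pt, H769.iv_pt, card_product, PL.card_iv, PL.card_iv, sum_product]
      have h4 : (4 : ℝ) ^ K = 2 ^ K * 2 ^ K := by rw [← mul_pow]; norm_num
      push_cast
      rw [h4, mul_inv_cancel_left₀ (by positivity)]
      rfl
    rw [e]
    refine sum_le_sum fun y hy => sum_le_sum fun z hz => ?_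
    exact hc.v_le y (by rw [H769.iv_pt]; exact hy) z (by rw [H769.iv_pt]; exact hz)
  exact h1.trans (mul_le_mul_of_nonneg_left h2 (by positivity))

/-- **The defect of the light pair.** -/
theorem dx_le {ez : ℝ} (hez : 0 < ez) (ht : 0 < p.t) (hs : 0 < s) (hr : 1 ≤ r)
    (h : BSl n ez p.cP F2 Q2) (hK : K ≤ n) (hP : 0 ≤ P) (hc : Cls K x s r P U g u v) (o t₀ : ℤ) :
    ∑ x0 ∈ iv K t₀, ∑ k ∈ range K, GW K (cx K x).2.1 (cx K x).1 (cx K x).2.2 (k + 1)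
      (cP o x0 (k + 1)) (dcc (p.lam s r) (KT (p.lam s r) u)
        (fun x z => (√ez)⁻¹ • mC p U K v F2 x0 (k + 1) z x) k) ≤
      (P / p.lam s r) * (s * 8 ^ K) := by
  have hl : 0 < p.lam s r := H401.Num.lam_pos ht hs hr
  have H := H999.dcc_sum (N := K) (R := (cx K x).2.1) (S := (cx K x).1) (T := (cx K x).2.2)
    (X := iv K t₀) (co := fun i j => cP o i j) (e := 2) (P := P)
    (F := fun i j x1 x3 => (√ez)⁻¹ * kF p.Lm U.2.1 K F2 j (i, x1, x3))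
    (c := fun i j x z => (√ez)⁻¹ • mC p U K v F2 i j z x) zero_le_two
    (l := p.lam s r) (G := GT u) (K := KT (p.lam s r) u) (fun y => tr_T hl K u y) (v := v) ?_
    ?_ ?_
  · refine H.trans ?_
    have h1 := mass_v hc
    have h2 : 2 * (2 ^ K * (P / (2 * p.lam s r)) * ∑ x1 ∈ iv K (cx K x).1,
        ∑ x3 ∈ iv K (cx K x).2.2, v x1 x3 ⬝ᵥ v x1 x3) ≤
        2 * (2 ^ K * (P / (2 * p.lam s r)) * (4 ^ K * s)) := by
      gcongr
    refine h2.trans (le_of_eq ?_)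
    rw [show (8 : ℝ) ^ K = 2 ^ K * 4 ^ K by rw [← mul_pow]; norm_num]
    field_simp
  · intro x1 hx1 q
    rw [H677.GT_form]
    have h1 := hc.u_pot x1 (by rw [H769.iv_pt]; exact hx1) q
    rw [H769.iv_pt] at h1
    unfold PL.H315.avg at h1
    rw [PL.card_iv] at h1
    push_cast at h1
    exact h1
  · intro j hj q x1 x3
    have h1 := line_kF (p := p) (U := U) h hK o (iv K t₀) j hj q x1 x3
    have h2 : ((√ez)⁻¹) ^ 2 = ez⁻¹ := by
      rw [inv_pow, Real.sq_sqrt hez.le]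
    simp only [mul_pow, h2, ← mul_sum]
    rw [inv_mul_le_iff₀ hez]
    refine h1.trans (le_of_eq (by ring))
  · intro i _ j _ y z
    unfold H401.mC H677.fC
    rw [smul_smul]

/-- **The caps of `cb`**: `be ^ 2`. -/
theorem caps_low' (ht : 0 < p.t) (hs : 0 < s) (hr : 1 ≤ r) (N : ℕ) (x0 : ℤ) :
    (∀ k, k < N → ∀ n m,
      ((p.be s r ^ 2) • (1 : Matrix (Ix (k + 1) × ι) (Ix (k + 1) × ι) ℝ) -
        LP (p.lam s r) (KT (p.lam s r) u) (cb p s r U K u F3 Q3 x0 (k + 1)) (k + 1) (k + 1)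
          n m).PosSemidef) ∧
    (∀ k, k < N → ∀ a, k ≤ a → a ≤ N → ∀ n m,
      ((p.be s r ^ 2) • (1 : Matrix (Ix k × ι) (Ix k × ι) ℝ) -
        LP (p.lam s r) (KT (p.lam s r) u) (cb p s r U K u F3 Q3 x0 (k + 1)) k a
          n m).PosSemidef) := by
  have hl : 0 < p.lam s r := H401.Num.lam_pos ht hs hr
  have hb : 0 < p.be s r := H401.Num.be_pos ht hs hr
  have hw : 0 < √(p.lam s r) := Real.sqrt_pos.2 hl
  have e : √(p.lam s r) * (p.be s r ^ 2 / √(p.lam s r)) = p.be s r ^ 2 := by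
    field_simp
  have hcw : 0 < p.be s r ^ 2 / √(p.lam s r) := div_pos (by positivity) hw
  have hT : ∀ y, H420.Tr (p.lam s r) N (GT u y) (KT (p.lam s r) u y) := fun y => tr_T hl N u y
  have hQ0 : ∀ n m, qB p U K Q3 0 (ix 0 x0) n m := fun n m => Or.inl rfl
  constructor
  · intro k hk n m
    have h := cap1_low (N := N) hT (Q := fun k n m => qB p U K Q3 k (ix k x0) n m)
      (F := b1 p s r U K u F3 Q3 x0) hcw hQ0 hk n m
    rw [e] at h
    exact h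
  · intro k hk a h1 h2 n m
    have h := cap_low (N := N) hT (Q := fun k n m => qB p U K Q3 k (ix k x0) n m)
      (F := b1 p s r U K u F3 Q3 x0) hcw hQ0 h1 h2 n m
    rw [e] at h
    exact h

/-- the charges of `cb` -/
theorem pB_cb (hLm : 1 ≤ p.Lm) (he : 0 ≤ p.e) (hcP : 0 ≤ p.cP) (hB3 : BSl n p.e p.cP F3 Q3)
    (hK : K ≤ n) (hc : Cls K x s r P U g u v) (t₀ : ℤ) :
    ∑ i ∈ iv K t₀, ∑ k ∈ range K, yS K (cx K x).1 (cx K x).2.1 k 1
      (fun n m => qB p U K Q3 k (ix k i) m n) (cb p s r U K u F3 Q3 i (k + 1)) ≤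
      4 * p.Lm * (p.cP + 2) * p.e * s * 8 ^ K := by
  obtain ⟨G1, f1⟩ := famK_cb (p := p) (s := s) (r := r) (u := u) hLm he hcP hB3 hK hc t₀
  refine le_trans (le_of_eq ?_) f1.pow
  refine sum_congr rfl fun i _ => ?_
  exact sum_yS K (cx K x).2.1 (cx K x).1 (fun k n m => qB p U K Q3 k (ix k i) n m)
    (cb p s r U K u F3 Q3 i)

/-- `C / √ez`, hub first -/
def cE (p : H401.Num) (ez : ℝ) (U : Tri) (K : ℕ) (v : ℤ → ℤ → ι → ℝ) (F2 : ℕ → Pt → ℝ) :
    ℤ → ℕ → ℤ → ℤ → ι → ℝ := fun i k y z => (√ez)⁻¹ • mC p U K v F2 i k z y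

/-- the charges of `C / √ez` -/
theorem pC_mC {ez : ℝ} (hez : 0 < ez) (hLm : 1 ≤ p.Lm) (hcP : 0 ≤ p.cP)
    (hB2 : BSl n ez p.cP F2 Q2) (hK : K ≤ n) (hc : Cls K x s r P U g u v) (t₀ : ℤ) :
    ∑ i ∈ iv K t₀, ∑ k ∈ range K, yS K (cx K x).1 (cx K x).2.2 k 1
      (fun n m => qC p U K Q2 k (ix k i) n m) (cE p ez U K v F2 i (k + 1)) ≤
      4 * p.Lm * (p.cP + 2) * s * 8 ^ K := by
  obtain ⟨G2, f2⟩ := famK_mC (p := p) (s := s) (r := r) (v := v) hLm hez.le hcP hB2 hK hc t₀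
  have e1 : ∀ i, ∑ k ∈ range K, yS K (cx K x).1 (cx K x).2.2 k 1
      (fun n m => qC p U K Q2 k (ix k i) n m) (cE p ez U K v F2 i (k + 1)) = ((√ez)⁻¹) ^ 2 *
      pwrK K (cx K x).1 (cx K x).2.2 (fun k n m => qC p U K Q2 k (ix k i) m n)
        (fun k y z => mC p U K v F2 i k z y) := by
    intro i
    rw [← pwrK_smul]
    exact sum_yS K (cx K x).2.2 (cx K x).1 (fun k n m => qC p U K Q2 k (ix k i) m n)
      (fun k y z => (√ez)⁻¹ • mC p U K v F2 i k z y)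
  rw [sum_congr rfl fun i _ => e1 i, ← mul_sum]
  refine (mul_le_mul_of_nonneg_left f2.pow (sq_nonneg _)).trans (le_of_eq ?_)
  rw [inv_pow, Real.sq_sqrt hez.le]
  field_simp

/-- the start and the agreement of `C / √ez` -/
theorem cE_path {ez : ℝ} (hez : 0 < ez) (hLm : 1 ≤ p.Lm) (hcP : 0 ≤ p.cP)
    (hB2 : BSl n ez p.cP F2 Q2) (hK : K ≤ n) (hc : Cls K x s r P U g u v) (t₀ : ℤ) :
    (∀ i ∈ iv K t₀, ∀ y z, cE p ez U K v F2 i 0 y z = 0) ∧
    ∀ i ∈ iv K t₀, ∀ k, k < K → ∀ n ∈ iv (K - k) (cx K x).2.2,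
      ∀ m ∈ iv (K - k) (cx K x).1, ¬ qC p U K Q2 k (ix k i) n m →
      ∀ y ∈ iv k m, ∀ z ∈ iv k n, cE p ez U K v F2 i (k + 1) y z = cE p ez U K v F2 i k y z := by
  obtain ⟨G2, f2⟩ := famK_mC (p := p) (s := s) (r := r) (v := v) hLm hez.le hcP hB2 hK hc t₀
  constructor
  · intro i hi y z
    have h0 : mC p U K v F2 i 0 z y = 0 := congrFun (congrFun (f2.zero i hi) y) z
    unfold cE
    rw [h0, smul_zero]
  · intro i hi k hk n hn m hm' hq y hy z hz'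
    have h1 := agr_path (N := K) (R := (cx K x).2.2) (S := (cx K x).1)
      (Q := fun k n m => qC p U K Q2 k (ix k i) m n)
      (b := fun k y z => mC p U K v F2 i k z y) (fun l => f2.path i hi l) k hk n hn m hm' hq y hy z
      hz'
    unfold cE
    rw [h1]

/-- the reflected squares -/
theorem rf_le {ez : ℝ} (hez : 0 < ez) (hLm : 1 ≤ p.Lm) (he : 0 ≤ p.e) (hcP : 0 ≤ p.cP)
    {o : ℤ} (ho : o = 1 ∨ o = -1)
    (hB3 : BSl n p.e p.cP F3 Q3) (hB2 : BSl n ez p.cP F2 Q2) (hK : K ≤ n)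
    (hc : Cls K x s r P U g u v) (t₀ : ℤ) {sC : ℝ} (psC : 0 < sC) :
    ∑ i ∈ iv K t₀, ∑ k ∈ range K, rS K (cx K x).2.1 (cx K x).1 (cx K x).2.2 k (cP o i k)
      sC (fun n m => qB p U K Q3 k (ix k i) m n) (cE p ez U K v F2 i (k + 1)) ≤
      sC ^ 2 * (20 * (p.cP + 2) * (4 * p.Lm * (p.cP + 2) * s * 8 ^ K)) := by
  obtain ⟨G1, f1⟩ := famK_cb (p := p) (s := s) (r := r) (u := u) hLm he hcP hB3 hK hc t₀
  obtain ⟨c0, agc⟩ := cE_path hez hLm hcP hB2 hK hc t₀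
  have pC := pC_mC hez hLm hcP hB2 hK hc t₀
  have h1 := sum_le_sum fun i (hi : i ∈ iv K t₀) => H588G.rS_sum (N := K)
    (R := (cx K x).2.1) (S := (cx K x).1) (T := (cx K x).2.2)
    (Q := fl fun k n m => qB p U K Q3 k (ix k i) n m)
    (Q' := fun k n m => qC p U K Q2 k (ix k i) n m)
    (F := cE p ez U K v F2 i) (co := fun k => cP o i k)
    (H677.cP_pl ho i) (cP := p.cP + 2) (s := sC) (by linarith) psC.ne'
    (H205.packQ_fl (f1.pack i hi)) (c0 i hi) (agc i hi)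
  refine h1.trans ?_
  rw [← mul_sum]
  refine (mul_le_mul_of_nonneg_left pC (by positivity)).trans (le_of_eq ?_)
  ring

/-- **The gains of one tile.** -/
theorem gain_tile {ez : ℝ} (hez : 0 < ez) (ht : 0 < p.t) (hLm : 1 ≤ p.Lm) (he : 0 ≤ p.e)
    (hcP : 0 ≤ p.cP) (hs : 0 < s) (hr : 1 ≤ r) {o : ℤ} (ho : o = 1 ∨ o = -1)
    (hB3 : BSl n p.e p.cP F3 Q3) (hB2 : BSl n ez p.cP F2 Q2) (hK : K ≤ n) (hP : 0 ≤ P)
    (hc : Cls K x s r P U g u v) (t₀ : ℤ) {sC : ℝ} (psC : 0 < sC) :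
    ∑ i ∈ iv K t₀, ∑ k ∈ range K, GW K (cx K x).2.1 (cx K x).1 (cx K x).2.2 (k + 1)
      (cP o i (k + 1)) (gn (p.lam s r) (KT (p.lam s r) u) sC (cb p s r U K u F3 Q3 i (k + 1))
        (cE p ez U K v F2 i (k + 1)) (k + 1)) ≤
      sC * √(p.be s r ^ 2) * (148 * (4 * p.Lm * (p.cP + 2) * p.e * s * 8 ^ K) +
        288 * (4 * p.Lm * (p.cP + 2) * s * 8 ^ K) + 3 * ((P / p.lam s r) * (s * 8 ^ K)) +
        20 * (p.cP + 2) * (4 * p.Lm * (p.cP + 2) * s * 8 ^ K)) +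
      6 * p.be s r ^ 2 * (4 * p.Lm * (p.cP + 2) * s * 8 ^ K) := by
  have hl : 0 < p.lam s r := H401.Num.lam_pos ht hs hr
  have hb : 0 < p.be s r := H401.Num.be_pos ht hs hr
  have hT : ∀ y, H420.Tr (p.lam s r) K (GT u y) (KT (p.lam s r) u y) := fun y => tr_T hl K u y
  obtain ⟨G1, f1⟩ := famK_cb (p := p) (s := s) (r := r) (u := u) hLm he hcP hB3 hK hc t₀
  obtain ⟨c0, agc⟩ := cE_path hez hLm hcP hB2 hK hc t₀
  have hcap := fun i => caps_low' (p := p) (s := s) (r := r) (U := U) (K := K) (u := u) (F3 := F3)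
    (Q3 := Q3) ht hs hr K i
  have b0 : ∀ i ∈ iv K t₀, ∀ y z, cb p s r U K u F3 Q3 i 0 y z = 0 := by
    intro i hi y z
    rw [f1.zero i hi]
    rfl
  exact H999.light_x0 (N := K) (X := iv K t₀) hT (R := (cx K x).2.1) (S := (cx K x).1)
    (T := (cx K x).2.2) (co := fun i k => cP o i k) (fun i _ => H677.cP_pl ho i) (s := sC)
    (Kop := p.be s r ^ 2) psC (by positivity)
    (b := cb p s r U K u F3 Q3) (c := cE p ez U K v F2)
    b0 c0 (fun i _ => (hcap i).1)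
    (fun i _ => (hcap i).2) (q := fun i k n m => qB p U K Q3 k (ix k i) m n)
    (q' := fun i k n m => qC p U K Q2 k (ix k i) n m)
    (fun i hi => agr_path (Q := fun k n m => qB p U K Q3 k (ix k i) n m)
      (b := cb p s r U K u F3 Q3 i) fun l => f1.path i hi l) agc
    (pB_cb hLm he hcP hB3 hK hc t₀) (pC_mC hez hLm hcP hB2 hK hc t₀)
    (rf_le hez hLm he hcP ho hB3 hB2 hK hc t₀ psC)
    (dx_le (p := p) (s := s) (r := r) hez ht hs hr hB2 hK hP hc o t₀)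

/-- the numbers -/
theorem num_tile {sC β Lm a e s V L D Pl : ℝ} (psC : 0 < sC) (pβ : 0 < β) (pa : 0 < a)
    (pe : 0 ≤ e) (pL : 0 ≤ L) (hV : V = Lm * s * D) (pV : 0 < V) (hPl : Pl ≤ L * V) :
    sC * √(β ^ 2) * (148 * (4 * Lm * a * e * s * D) + 288 * (4 * Lm * a * s * D) + 3 * Pl +
      20 * a * (4 * Lm * a * s * D)) + 6 * β ^ 2 * (4 * Lm * a * s * D) ≤
    (592 * (a * e) + 1176 * a + 80 * a ^ 2 + 3 * L) * (Lm * ((β * sC + β ^ 2) * s) * D) := by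
  rw [Real.sqrt_sq pβ.le]
  have e1 : sC * β * (148 * (4 * Lm * a * e * s * D) + 288 * (4 * Lm * a * s * D) + 3 * Pl +
      20 * a * (4 * Lm * a * s * D)) + 6 * β ^ 2 * (4 * Lm * a * s * D) =
      sC * β * (592 * (a * e) * V + 1152 * a * V + 3 * Pl + 80 * a ^ 2 * V) +
        24 * a * (β ^ 2 * V) := by
    rw [hV]; ring
  have e2 : (592 * (a * e) + 1176 * a + 80 * a ^ 2 + 3 * L) * (Lm * ((β * sC + β ^ 2) * s) * D) =
      (592 * (a * e) + 1176 * a + 80 * a ^ 2 + 3 * L) * (β * sC * V) +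
      (592 * (a * e) + 1176 * a + 80 * a ^ 2 + 3 * L) * (β ^ 2 * V) := by
    rw [hV]; ring
  rw [e1, e2]
  have q1 : sC * β * (3 * Pl) ≤ sC * β * (3 * (L * V)) :=
    mul_le_mul_of_nonneg_left (by linarith) (by positivity)
  have z2 : 24 * a * (β ^ 2 * V) ≤
      (592 * (a * e) + 1176 * a + 80 * a ^ 2 + 3 * L) * (β ^ 2 * V) := by
    refine mul_le_mul_of_nonneg_right ?_ (by positivity)
    have : 0 ≤ a * e := by positivity
    nlinarith [sq_nonneg a]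
  have z1 : 0 ≤ a * (β * sC * V) := by positivity
  nlinarith [q1, z1, z2]

/-- **The light pair of one tile.** -/
theorem light_tile {ez : ℝ} {L : ℕ} {e : ι → ℤ} (hinj : Function.Injective e)
    (hm : ∀ i, e i ∈ lbs L) (hez : 0 < ez) (ht : 0 < p.t) (hLm : 1 ≤ p.Lm) (he : 0 ≤ p.e)
    (hcP : 0 ≤ p.cP) (hs : 0 < s) (hr : 1 ≤ r) {o : ℤ} (ho : o = 1 ∨ o = -1)
    (hB3 : BSl n p.e p.cP F3 Q3) (hB2 : BSl n ez p.cP F2 Q2) (hK : K ≤ n) (hP : 0 ≤ P)
    (hc : Cls K x s r P U g u v) (hL0 : 0 ≤ p.L) (hPl : P ≤ p.L * p.lam s r)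
    (Al : ℕ → Pt → Prop) (t₀ : ℤ) {cC : ℝ} (hcC : 0 < cC) (j : ℕ) :
    ∑ i ∈ iv K t₀, (cC / 2 ^ (j - 1)) ^ 2 * ∑ k ∈ Icc 1 K,
      ∑ m ∈ H677.sN Al o K (cx K x) i k,
      (phi (P075.gramC (lv cC j * (4 ^ (k + L))⁻¹)
          (bl (k + L) (encR L (CL e fun z x1 => (√ez)⁻¹ • mC p U K v F2 i k z x1)) m.1 m.2.2)) *
        ((hd (k + L) * SV L e (VL (p.lam s r) (KT (p.lam s r) u)) (k + L) m *
          (bl (k + L) (encR L (BL e (cb p s r U K u F3 Q3 i k))) m.2.1 m.2.2)ᵀ * hd (k + L)) *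
        (hd (k + L) * SV L e (VL (p.lam s r) (KT (p.lam s r) u)) (k + L) m *
          (bl (k + L) (encR L (BL e (cb p s r U K u F3 Q3 i k))) m.2.1 m.2.2)ᵀ *
            hd (k + L))ᵀ)).trace ≤
    4 ^ L * ((592 * ((p.cP + 2) * p.e) + 1176 * (p.cP + 2) + 80 * (p.cP + 2) ^ 2 + 3 * p.L) *
      (p.Lm * ((p.be s r * (cC / 2 ^ (j - 1)) + p.be s r ^ 2) * s) * 8 ^ K)) := by
  have hl : 0 < p.lam s r := H401.Num.lam_pos ht hs hr
  have hb : 0 < p.be s r := H401.Num.be_pos ht hs hr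
  have hT : ∀ y, H420.Tr (p.lam s r) K (GT u y) (KT (p.lam s r) u y) := fun y => tr_T hl K u y
  have psC : 0 < cC / 2 ^ (j - 1) := by positivity
  have H1 := sum_le_sum fun i (_ : i ∈ iv K t₀) => PH_zl (N := K) (L := L) (e := e)
    (R := H677.rv (cx K x)) (co := fun k => cP o i k) (s := H677.sN Al o K (cx K x) i) (cC := cC)
    (b := cb p s r U K u F3 Q3 i) (C := fun k z x1 => (√ez)⁻¹ • mC p U K v F2 i k z x1) hT hinj hm
    hcC (fun k _ => H677.sN_sub Al o K (cx K x) i k) j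
  refine H1.trans ?_
  rw [← mul_sum]
  refine mul_le_mul_of_nonneg_left ?_ (by positivity)
  refine (gain_tile hez ht hLm he hcP hs hr ho hB3 hB2 hK hP hc t₀ psC).trans ?_
  have hLm0 : 0 < p.Lm := by linarith
  refine num_tile psC hb (by linarith) he hL0 rfl (by positivity) ?_
  have h1 : P / p.lam s r ≤ p.L := (div_le_iff₀ hl).2 hPl
  have h2 : s * 8 ^ K ≤ p.Lm * s * 8 ^ K := by
    have : 0 ≤ s * 8 ^ K := by positivity
    nlinarith
  exact mul_le_mul h1 h2 (by positivity) hL0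

end cls

end

end Vale.Agent.P141.H80
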