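import Vale.Agent.P141.H80.SupA
import Vale.Agent.P141.H447.NumTI
import Vale.Agent.P141.H808.VarDr
import Vale.Agent.P141.H80.InstL
import Vale.Agent.P141.H816.FDatM
import Vale.Agent.P141.H958.Kill

/-!
# P141, line (A), TI, leaf LBCg: the births of the third slot against every coarser scale

* `born_sup` : the weights of the slot on affected squares against the largest form of the coarser
  scales, summed over `x₀`;
* `log_num` : logarithmic numbers;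
* `gBorn : GBorn` : class data, all lags at once; `gBornR : GBornR` : per lag.
-/

namespace Vale.Agent.P141.H80

open Finset Matrix
open Vale.Agent.P141.PL (Pt iv ix cx mem_iv card_iv)
open Vale.Agent.P141.PL.H315 (Tri A2)
open Vale.Agent.P141.H420 (Tr)
open Vale.Agent.P141.H48 (US ES BSl sst)
open Vale.Agent.P141.H305 (Cls ClsM kapM)
open Vale.Agent.P141.H401 (StQ mC qC)
open Vale.Agent.P141.H677 (KT GT rt tr_T kF)
open Vale.Agent.P141.H681 (mxT mxT_nonneg le_mxT sum_mxT)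
open Vale.Agent.P141.H505.Sk1 (Ch eT)
open Vale.Agent.P141.H447 (gv gv_eq gv_nonneg gv_le dot_self_nonneg)
open Vale.Agent.P141.H408
open Vale.Agent.P141.H808
open Vale.Agent.P141.H224 (cq)
open Vale.Agent.P141.H958 (PackQ)

noncomputable section

open scoped Classical

set_option linter.unusedVariables false

/-! ### Fixed roots -/

section fix

variable {ι : Type} [Fintype ι] [DecidableEq ι]
variable {be l : ℝ} {K : ℕ} {S : ℤ} {G Kq : ℤ → ℕ → ℤ → Matrix ι ι ℝ}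

/-- **Affected squares against the largest form of the coarser scales.** -/
theorem born_sup (hbe : 0 ≤ be) (hT : ∀ x, Tr l K (G x) (Kq x)) {v : ℤ → ℤ → ι → ℝ}
    {Z : ℤ → ℤ → ℕ → ℤ → ℝ} {e : ℝ} (he : 0 ≤ e) (hZ0 : ∀ x z k x0, 0 ≤ Z x z k x0)
    (hZ1 : ∀ k < K, ∀ m x z : ℤ, ∑ x0 ∈ iv k m, Z x z (k + 1) x0 ≤ e * 2 ^ k)
    {QC : ℕ → ℤ → ℤ → ℤ → Prop} {R1 R3 : ℤ} {B τ : ℝ} (hB : 1 ≤ B) (hτ : 0 ≤ τ)
    (hpk : ∀ x0, PackQ K R1 R3 (fun k => QC k (ix k x0)) B)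
    (hmC : ∀ x0, ∀ k < K, ∀ i j, QC k (ix k x0) i j →
      ∑ x ∈ iv k i, ∑ z ∈ iv k j, v x z ⬝ᵥ v x z ≤ τ * 4 ^ k) (lam L : ℕ) (c T : ℤ) :
    ∑ x0 ∈ iv K T, ∑ k ∈ range K, ∑ x ∈ iv K R1, ∑ z ∈ iv K R3,
      (if QC k (ix k x0) (ix k x) (ix k z) then Z x z (k + 1) x0 *
        Xl (gv be l K S Kq c v x z) K k x0 else 0) ≤
      lam * e * (2 ^ K * ∑ x ∈ iv K R1, ∑ z ∈ iv K R3, ((be + 2 / 2 ^ L) * (v x z ⬝ᵥ v x z) +
          10 * L * l⁻¹ * (v x z ⬝ᵥ G x K S *ᵥ v x z))) +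
        e * ((be + 2) * (2 ^ K * (τ * ((1 - 1 / B) ^ lam * (B * 4 ^ K))))) := by
  have key : ∀ x z : ℤ, ∑ x0 ∈ iv K T, ∑ k ∈ range K,
      (if QC k (ix k x0) (ix k x) (ix k z) then Z x z (k + 1) x0 *
        Xl (gv be l K S Kq c v x z) K k x0 else 0) ≤
      lam * e * ∑ x0 ∈ iv K T,
          (be * (v x z ⬝ᵥ v x z) + mxT l K S (Kq x) (v x z) L c x z x0) +
        e * ((be + 2) * (v x z ⬝ᵥ v x z) * ∑ x0 ∈ iv K T,
          ((cq (fun k j => QC k j (ix k x) (ix k z)) K 0 x0 - lam : ℕ) : ℝ)) := by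
    intro x z
    exact aff_sup (n := K) (a := fun k j => QC k j (ix k x) (ix k z)) (T := T)
      (W := fun k x0 => Z x z (k + 1) x0) (X := fun k x0 => Xl (gv be l K S Kq c v x z) K k x0)
      (Φ := fun x0 => be * (v x z ⬝ᵥ v x z) + mxT l K S (Kq x) (v x z) L c x z x0) he
      (fun k x0 => Xl_nonneg (fun a x' => gv_nonneg hbe hT c v x z a x') K k x0)
      (fun k hk x0 => Xl_le hk.le fun a _ _ => gv_le hT c v x z a x0)
      (fun x0 => add_nonneg (mul_nonneg hbe (dot_self_nonneg _)) (mxT_nonneg _ _ _ _ _ _))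
      (fun k hk x0 x0' hx0' => Xl_le hk.le fun a ha haK => by
        rw [gv_eq]
        have h0 : ix a x0' = ix a x0 := by
          have h1 := mem_iv.1 hx0'
          rw [← Nat.add_sub_cancel' ha, ← PL.ix_ix, ← PL.ix_ix, h1]
        have h1 := le_mxT (M := S) (hT x) (v x z) L c x z haK h0
        linarith)
      (fun k x0 => hZ0 x z (k + 1) x0) (fun k hk j => hZ1 k hk j x z) lam
  have e1 : ∑ x0 ∈ iv K T, ∑ k ∈ range K, ∑ x ∈ iv K R1, ∑ z ∈ iv K R3,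
      (if QC k (ix k x0) (ix k x) (ix k z) then Z x z (k + 1) x0 *
        Xl (gv be l K S Kq c v x z) K k x0 else 0) =
      ∑ x ∈ iv K R1, ∑ z ∈ iv K R3, ∑ x0 ∈ iv K T, ∑ k ∈ range K,
      (if QC k (ix k x0) (ix k x) (ix k z) then Z x z (k + 1) x0 *
        Xl (gv be l K S Kq c v x z) K k x0 else 0) := by
    rw [H447.comm3]
    exact sum_congr rfl fun x _ => sum_congr rfl fun z _ => sum_comm
  rw [e1]
  have h2 : ∀ x z : ℤ, ∑ x0 ∈ iv K T,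
      (be * (v x z ⬝ᵥ v x z) + mxT l K S (Kq x) (v x z) L c x z x0) ≤
      2 ^ K * ((be + 2 / 2 ^ L) * (v x z ⬝ᵥ v x z) +
        10 * L * l⁻¹ * (v x z ⬝ᵥ G x K S *ᵥ v x z)) := by
    intro x z
    have h3 := sum_mxT (M := S) (hT x) (v x z) L c x z T
    rw [sum_add_distrib, sum_const, card_iv, nsmul_eq_mul]
    push_cast
    have e3 : (2 : ℝ) ^ K * ((be + 2 / 2 ^ L) * (v x z ⬝ᵥ v x z) +
        10 * L * l⁻¹ * (v x z ⬝ᵥ G x K S *ᵥ v x z)) = 2 ^ K * (be * (v x z ⬝ᵥ v x z)) +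
        2 ^ K * (10 * L * l⁻¹ * (v x z ⬝ᵥ G x K S *ᵥ v x z) + 2 / 2 ^ L * (v x z ⬝ᵥ v x z)) := by
      ring
    rw [e3]
    linarith
  have h4 : ∑ x ∈ iv K R1, ∑ z ∈ iv K R3, (v x z ⬝ᵥ v x z) * ∑ x0 ∈ iv K T,
      ((cq (fun k j => QC k j (ix k x) (ix k z)) K 0 x0 - lam : ℕ) : ℝ) ≤
      2 ^ K * (τ * ((1 - 1 / B) ^ lam * (B * 4 ^ K))) := by
    have e4 : ∑ x ∈ iv K R1, ∑ z ∈ iv K R3, (v x z ⬝ᵥ v x z) * ∑ x0 ∈ iv K T,
        ((cq (fun k j => QC k j (ix k x) (ix k z)) K 0 x0 - lam : ℕ) : ℝ) =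
        ∑ x0 ∈ iv K T, ∑ x ∈ iv K R1, ∑ z ∈ iv K R3, (v x z ⬝ᵥ v x z) *
          ((cq (fun k j => QC k j (ix k x) (ix k z)) K 0 x0 - lam : ℕ) : ℝ) := by
      rw [sum_comm (s := iv K T)]
      refine sum_congr rfl fun x _ => ?_
      rw [sum_comm (s := iv K T)]
      refine sum_congr rfl fun z _ => ?_
      rw [mul_sum]
    rw [e4]
    have h5 : ∀ x0 ∈ iv K T, ∑ x ∈ iv K R1, ∑ z ∈ iv K R3, (v x z ⬝ᵥ v x z) *
        ((cq (fun k j => QC k j (ix k x) (ix k z)) K 0 x0 - lam : ℕ) : ℝ) ≤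
        τ * ((1 - 1 / B) ^ lam * (B * 4 ^ K)) := fun x0 _ =>
      H224.sum_cq hB hτ (hpk x0) (c := fun x z => v x z ⬝ᵥ v x z) (hmC x0) lam
    have h6 := sum_le_card_nsmul _ _ _ h5
    rw [card_iv, nsmul_eq_mul] at h6
    push_cast at h6
    exact h6
  have he2 : 0 ≤ (lam : ℝ) * e := by positivity
  calc ∑ x ∈ iv K R1, ∑ z ∈ iv K R3, ∑ x0 ∈ iv K T, ∑ k ∈ range K,
      (if QC k (ix k x0) (ix k x) (ix k z) then Z x z (k + 1) x0 *
        Xl (gv be l K S Kq c v x z) K k x0 else 0)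
      ≤ ∑ x ∈ iv K R1, ∑ z ∈ iv K R3, ((lam : ℝ) * e * (2 ^ K *
          ((be + 2 / 2 ^ L) * (v x z ⬝ᵥ v x z) + 10 * L * l⁻¹ * (v x z ⬝ᵥ G x K S *ᵥ v x z))) +
        e * (be + 2) * ((v x z ⬝ᵥ v x z) * ∑ x0 ∈ iv K T,
          ((cq (fun k j => QC k j (ix k x) (ix k z)) K 0 x0 - lam : ℕ) : ℝ))) := by
        refine sum_le_sum fun x _ => sum_le_sum fun z _ => (key x z).trans ?_
        have h7 := mul_le_mul_of_nonneg_left (h2 x z) he2
        have e7 : e * ((be + 2) * (v x z ⬝ᵥ v x z) * ∑ x0 ∈ iv K T,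
          ((cq (fun k j => QC k j (ix k x) (ix k z)) K 0 x0 - lam : ℕ) : ℝ)) =
          e * (be + 2) * ((v x z ⬝ᵥ v x z) * ∑ x0 ∈ iv K T,
          ((cq (fun k j => QC k j (ix k x) (ix k z)) K 0 x0 - lam : ℕ) : ℝ)) := by ring
        rw [e7]
        linarith
    _ = (lam : ℝ) * e * (2 ^ K *
          ∑ x ∈ iv K R1, ∑ z ∈ iv K R3, ((be + 2 / 2 ^ L) * (v x z ⬝ᵥ v x z) +
            10 * L * l⁻¹ * (v x z ⬝ᵥ G x K S *ᵥ v x z))) +
        e * (be + 2) * ∑ x ∈ iv K R1, ∑ z ∈ iv K R3, (v x z ⬝ᵥ v x z) * ∑ x0 ∈ iv K T,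
          ((cq (fun k j => QC k j (ix k x) (ix k z)) K 0 x0 - lam : ℕ) : ℝ) := by
        exact H447.sum2_lin _ _ _ _ _ _ _
    _ ≤ _ := by
        have h8 := mul_le_mul_of_nonneg_left h4 (show 0 ≤ e * (be + 2) by positivity)
        have e8 : e * ((be + 2) * (2 ^ K * (τ * ((1 - 1 / B) ^ lam * (B * 4 ^ K))))) =
          e * (be + 2) * (2 ^ K * (τ * ((1 - 1 / B) ^ lam * (B * 4 ^ K)))) := by ring
        rw [e8]
        exact add_le_add le_rfl h8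

end fix

/-! ### Logarithmic numbers -/

theorem log_num {ρ : ℝ} (h0 : 0 ≤ ρ) (h1 : ρ < 1) {m δ : ℝ} (hm : 0 ≤ m) (hδ : 0 < δ) :
    ∃ C : ℝ, 1 ≤ C ∧ ∀ y : ℝ, 0 < y → y ≤ 1 → ∃ n : ℕ, ρ ^ n ≤ y ^ m ∧ (n : ℝ) ≤ C * y ^ (-δ) := by
  have hρ : 0 < 1 - ρ := by linarith
  refine ⟨m / ((1 - ρ) * δ) + 1, ?_, fun y hy hy1 => ?_⟩
  · have : 0 ≤ m / ((1 - ρ) * δ) := by positivity
    linarith
  have hl : 0 ≤ Real.log (1 / y) := Real.log_nonneg (by rw [le_div_iff₀ hy]; linarith)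
  refine ⟨⌈m * Real.log (1 / y) / (1 - ρ)⌉₊, ?_, ?_⟩
  · set n := ⌈m * Real.log (1 / y) / (1 - ρ)⌉₊ with hn
    have h2 : m * Real.log (1 / y) / (1 - ρ) ≤ n := Nat.le_ceil _
    have h3 : ρ ≤ Real.exp (-(1 - ρ)) := by
      have := Real.add_one_le_exp (-(1 - ρ))
      linarith
    calc ρ ^ n ≤ Real.exp (-(1 - ρ)) ^ n := pow_le_pow_left₀ h0 h3 n
      _ = Real.exp (n * -(1 - ρ)) := (Real.exp_nat_mul _ _).symm
      _ ≤ Real.exp (Real.log y * m) := by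
          refine Real.exp_le_exp.2 ?_
          rw [div_le_iff₀ hρ] at h2
          rw [Real.log_div one_ne_zero hy.ne', Real.log_one, zero_sub] at h2
          linarith
      _ = y ^ m := (Real.rpow_def_of_pos hy m).symm
  · have h2 : m * Real.log (1 / y) / (1 - ρ) ≤ m / ((1 - ρ) * δ) * y ^ (-δ) := by
      have h3 : Real.log (1 / y) ≤ (1 / y) ^ δ / δ :=
        Real.log_le_rpow_div (by positivity) hδ
      have h4 : (1 / y) ^ δ = y ^ (-δ) := by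
        rw [one_div, Real.inv_rpow hy.le, Real.rpow_neg hy.le]
      rw [h4] at h3
      calc m * Real.log (1 / y) / (1 - ρ) ≤ m * (y ^ (-δ) / δ) / (1 - ρ) := by gcongr
        _ = _ := by field_simp
    have h5 : (1 : ℝ) ≤ y ^ (-δ) := by
      rw [Real.rpow_neg hy.le]
      exact (one_le_inv₀ (Real.rpow_pos_of_pos hy _)).2 (Real.rpow_le_one hy.le hy1 hδ.le)
    have h6 := Nat.ceil_lt_add_one (a := m * Real.log (1 / y) / (1 - ρ)) (by positivity)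
    have h7 : (m / ((1 - ρ) * δ) + 1) * y ^ (-δ) = m / ((1 - ρ) * δ) * y ^ (-δ) + y ^ (-δ) := by
      ring
    rw [h7]
    linarith

/-! ### Class data -/

section cls

variable {ι : Type} [Fintype ι] [DecidableEq ι]

/-- the largest form of the slot at the scales `a ≥ k` -/
def eL (c : ℤ → ℤ → ι → ℝ) (Th : ℤ → ℕ → ℤ → Matrix ι ι ℝ) (K k : ℕ) (x z : ℤ) : ℝ :=
  Xl (fun a _ => eT c Th a x z) K k 0

omit [DecidableEq ι] in
theorem le_eL (c : ℤ → ℤ → ι → ℝ) (Th : ℤ → ℕ → ℤ → Matrix ι ι ℝ) {K k a : ℕ} (h1 : k ≤ a)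
    (h2 : a ≤ K) (x z : ℤ) : eT c Th a x z ≤ eL c Th K k x z :=
  le_Xl (fun a _ => eT c Th a x z) h1 h2 0

/-- the affected alive squares of the third slot, order `x1`, `x3` -/
def qL (p : H401.Num) (U : Tri) (K : ℕ) (Q2 : ℕ → Pt → Prop) (R1 R3 : ℤ) (k : ℕ) (i i1 i3 : ℤ) :
    Prop :=
  qC p U K Q2 k i i3 i1 ∧ ¬ sst p.Lm U.2.1 K (k + 1) (2 ^ k * i1) (2 ^ k * i3) ∧
    i1 ∈ iv (K - k) R1 ∧ i3 ∈ iv (K - k) R3

theorem eT_cS {p : H401.Num} {ez : ℝ} (hez : 0 < ez) (s r : ℝ) (o : ℤ) {K : ℕ} (x : Pt)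
    (U : Tri) (u v : ℤ → ℤ → ι → ℝ) (F2 : ℕ → Pt → ℝ) (x0 : ℤ) {k : ℕ} (hk : k + 1 ≤ K) (a : ℕ)
    (x1 z : ℤ) :
    eT (cS p ez U K v F2 x0 (k + 1)) (thS p s r o K x u x0) a x1 z =
      wl p ez U K F2 x1 z (k + 1) x0 *
        gv (beI p r) (p.lam s r) K (cx K x).2.1 (KT (p.lam s r) u) (o - 2) v x1 z a x0 := by
  unfold H505.Sk1.eT
  rw [cS_succ p ez U K v F2 x0 hk x1 z, quad_smul, q_sq hez]
  rfl

theorem eL_le {p : H401.Num} {ez : ℝ} (hez : 0 < ez) (s r : ℝ) (o : ℤ) {K : ℕ} (x : Pt)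
    (U : Tri) (u v : ℤ → ℤ → ι → ℝ) (F2 : ℕ → Pt → ℝ) (x0 : ℤ) {k : ℕ} (hk : k + 1 ≤ K)
    (x1 z : ℤ) :
    eL (cS p ez U K v F2 x0 (k + 1)) (thS p s r o K x u x0) K k x1 z ≤
      wl p ez U K F2 x1 z (k + 1) x0 *
        Xl (gv (beI p r) (p.lam s r) K (cx K x).2.1 (KT (p.lam s r) u) (o - 2) v x1 z) K k x0 := by
  refine Xl_le (by omega) fun a ha haK => ?_
  rw [eT_cS hez s r o x U u v F2 x0 hk a x1 z]
  exact mul_le_mul_of_nonneg_left (le_Xl _ ha haK x0) (wl_nonneg hez U K F2 x1 z (k + 1) x0)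

/-- a change of the slot happens on an affected alive square -/
theorem ch_qL {p : H401.Num} {ez : ℝ} {n K : ℕ} (hK : K ≤ n) (x : Pt) (U : Tri)
    (v : ℤ → ℤ → ι → ℝ) {F2 : ℕ → Pt → ℝ} {Q2 : ℕ → Pt → Prop} {e cP : ℝ}
    (hB : BSl n e cP F2 Q2) (x0 : ℤ) {k : ℕ} (hk : k + 1 ≤ K) {x1 z : ℤ}
    (h1 : x1 ∈ iv K (cx K x).1) (h3 : z ∈ iv K (cx K x).2.2)
    (h : Ch (cS p ez U K v F2 x0) k (ix k x1) (ix k z)) :
    qL p U K Q2 (cx K x).1 (cx K x).2.2 k (ix k x0) (ix k x1) (ix k z) := by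
  obtain ⟨y, hy, w, hw, hne⟩ := h
  have hk0 : min k K = k := min_eq_left (by omega)
  have hk1 : min (k + 1) K = k + 1 := min_eq_left hk
  have e0 : cS p ez U K v F2 x0 k y w = (√ez)⁻¹ • mC p U K v F2 x0 k w y := by
    show C1 p ez U K v F2 x0 (min k K) w y = _
    rw [hk0]
    rfl
  have e1 : cS p ez U K v F2 x0 (k + 1) y w = (√ez)⁻¹ • mC p U K v F2 x0 (k + 1) w y := by
    show C1 p ez U K v F2 x0 (min (k + 1) K) w y = _
    rw [hk1]
    rfl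
  rw [e0, e1] at hne
  refine ⟨?_, ?_, ?_, ?_⟩
  · by_contra hq
    exact hne (by rw [H816.mC_agree p U K v hB (by omega : k < n) hq w hw y hy])
  · intro hst
    have hst' : sst p.Lm U.2.1 K (k + 1) y w :=
      (H769.sst_congr (Λ := p.Lm) (H769.ix_of_le (Nat.le_succ k) (H769.corner k hy))
        (H769.ix_of_le (Nat.le_succ k) (H769.corner k hw))).2 hst
    have z1 : mC p U K v F2 x0 (k + 1) w y = 0 := by
      show kF p.Lm U.2.1 K F2 (k + 1) (x0, y, w) • v y w = 0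
      unfold H677.kF
      rw [if_pos (Or.inr hst'), zero_smul]
    have z0 : mC p U K v F2 x0 k w y = 0 := by
      show kF p.Lm U.2.1 K F2 k (x0, y, w) • v y w = 0
      have hs0 : sst p.Lm U.2.1 K k y w := by
        obtain ⟨m, g1, g2, g3⟩ := hst'
        exact ⟨m, by omega, g2, g3⟩
      unfold H677.kF
      rw [if_pos (Or.inr hs0), zero_smul]
    exact hne (by rw [z1, z0])
  · rw [mem_iv, PL.ix_ix, Nat.add_sub_cancel' (by omega : k ≤ K)]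
    exact mem_iv.1 h1
  · rw [mem_iv, PL.ix_ix, Nat.add_sub_cancel' (by omega : k ≤ K)]
    exact mem_iv.1 h3

end cls

/-- **births** of the stack against every coarser scale, all lags at once -/
def GBorn : Prop := PairQ fun ι _ _ p _ ez _ F2 _ o K x s r U _ u v _ _ _ X =>
  ∑ t ∈ rt (cx K x), ∑ x0 ∈ iv K t, ∑ k ∈ Ico 0 K,
    ∑ x1 ∈ iv K (cx K x).1, ∑ z ∈ iv K (cx K x).2.2,
      (if Ch (cS p ez U K v F2 x0) k (ix k x1) (ix k z) then
        eL (cS p ez U K v F2 x0 (k + 1)) (thS p s r o K x u x0) K k x1 z else 0) ≤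
    X * (s * 8 ^ K) * (p.t / r) ^ (p.e0 / 2)

/-- **births** of the stack against the coarser scales, per lag -/
def GBornR : Prop := PairQ fun ι _ _ p _ ez _ F2 _ o K x s r U _ u v _ _ _ X => ∀ l : ℕ,
  ∑ t ∈ rt (cx K x), ∑ x0 ∈ iv K t, ∑ k ∈ Ico 0 K,
    ∑ x1 ∈ iv K (cx K x).1, ∑ z ∈ iv K (cx K x).2.2,
      (if Ch (cS p ez U K v F2 x0) k (ix k x1) (ix k z) then
        eT (cS p ez U K v F2 x0 (k + 1)) (thS p s r o K x u x0) (min (k + l) K) x1 z else 0) ≤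
    X * (s * 8 ^ K) * (p.t / r) ^ (p.e0 / 2)

/-- **Births of the stack against every coarser scale.** -/
theorem gBorn : GBorn := by
  intro a ha ha1
  refine ⟨1, one_pos, fun e0 he0 _ => ⟨1, one_pos, fun k8 _ _ => ⟨1, one_pos, fun k3 _ _ δ hδ =>
    ⟨δ / 3, 1, by positivity, one_pos, fun c hc hcc d hd hdd Kt e cP L hK he hcP hL => ?_⟩⟩⟩⟩
  have hB1 : 1 ≤ cP + 2 := by linarith
  have hB0 : 0 < cP + 2 := by linarith
  have hρ0 : 0 ≤ 1 - 1 / (cP + 2) := by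
    rw [sub_nonneg, div_le_one hB0]
    exact hB1
  have hρ1 : 1 - 1 / (cP + 2) < 1 := by
    have : 0 < 1 / (cP + 2) := by positivity
    linarith
  obtain ⟨Cl, hCl, Hl⟩ := log_num hρ0 hρ1 (m := e0 / 2 + d) (δ := δ / 3) (by positivity)
    (by positivity)
  obtain ⟨CL, hCL, HL⟩ := log_num (ρ := 1 / 2) (by norm_num) (by norm_num) (m := e0 / 2)
    (δ := δ / 3) (by positivity) (by positivity)
  refine ⟨9 * Cl + 30 * L * Cl * CL + 36 * (cP + 2), by positivity, ?_⟩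
  intro t ht ht1 n ez F1 F2 F3 h1 h3 h2 o ho K hKn x ι _ _ s r U g u v hs hr hcls Q1 Q2 Q3 q1 q2 q3
    hez
  set p : H401.Num := ⟨a, e0, k8, k3, c, d, Kt, e, cP, L, 1, t⟩ with hp
  have hr0 : 0 < r := by linarith
  have hy0 : 0 < t / r := div_pos ht hr0
  have hyt : t / r ≤ t := by
    rw [div_le_iff₀ hr0]
    nlinarith
  have hy1 : t / r ≤ 1 := hyt.trans ht1
  have hl : 0 < p.lam s r := H401.Num.lam_pos (p := p) ht hs hr
  have hbe : 0 < beI p r := Real.rpow_pos_of_pos hy0 _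
  have hLm : 1 ≤ p.Lm := H401.Num.Lm_ge (p := p) ht ht1 hd.le
  obtain ⟨lam, hlam1, hlam2⟩ := Hl (t / r) hy0 hy1
  obtain ⟨J, hJ1, hJ2⟩ := HL (t / r) hy0 hy1
  set R1 := (cx K x).1 with hR1
  set R3 := (cx K x).2.2 with hR3
  set y := t / r with hy

  have hone : ∀ t0 : ℤ, ∑ x0 ∈ iv K t0, ∑ k ∈ Ico 0 K, ∑ x1 ∈ iv K R1, ∑ z ∈ iv K R3,
      (if Ch (cS p ez U K v F2 x0) k (ix k x1) (ix k z) then
        eL (cS p ez U K v F2 x0 (k + 1)) (thS p s r o K x u x0) K k x1 z else 0) ≤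
      lam * 1 * (2 ^ K * ∑ x1 ∈ iv K R1, ∑ z ∈ iv K R3,
        ((beI p r + 2 / 2 ^ J) * (v x1 z ⬝ᵥ v x1 z) +
          10 * J * (p.lam s r)⁻¹ * (v x1 z ⬝ᵥ GT u x1 K (cx K x).2.1 *ᵥ v x1 z))) +
        1 * ((beI p r + 2) * (2 ^ K * ((4 * p.Lm * s) * ((1 - 1 / (cP + 2)) ^ lam *
          ((cP + 2) * 4 ^ K))))) := by
    intro t0
    have hb := born_sup (l := p.lam s r) (K := K) (S := (cx K x).2.1) (G := GT u)
      (Kq := KT (p.lam s r) u) hbe.le (fun x1 => tr_T hl K u x1) (v := v)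
      (Z := wl p ez U K F2) (e := 1) zero_le_one
      (fun x1 z k x0 => wl_nonneg hez U K F2 x1 z k x0)
      (fun k hk m x1 z => by
        unfold H808.wl
        rw [← mul_sum, one_mul, inv_mul_le_iff₀ hez]
        exact H816.line_kF1 q2 U.2.1 K (hk.trans_le hKn) m x1 z)
      (QC := qL p U K Q2 R1 R3) (R1 := R1) (R3 := R3) (B := cP + 2) (τ := 4 * p.Lm * s) hB1
      (by positivity)
      (fun x0 => by
        obtain ⟨G, hG⟩ := famK_mC (p := p) (v := v) hLm hez.le hcP q2 hKn hcls.toCls (ix K x0)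
        have h := hG.pack x0 (mem_iv.2 rfl)
        exact H958.Kill.packQ_mono h fun k i j hq => hq.1)
      (fun x0 k hk i j hq => by
        have h := H816.sq_alive (Λ := p.Lm) (s := s) (by linarith) hk (mem_iv.1 hq.2.2.1)
          (mem_iv.1 hq.2.2.2) hcls.U_v2 hq.2.1
        refine le_trans (sum_le_sum fun x1 hx1 => sum_le_sum fun z hz => ?_) h
        refine hcls.v_le x1 ?_ z ?_
        · rw [H769.iv_pt]
          exact H576.root_mem hk.le hq.2.2.1 hx1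
        · rw [H769.iv_pt]
          exact H576.root_mem hk.le hq.2.2.2 hz)
      lam J (o - 2) t0
    refine le_trans ?_ hb
    rw [range_eq_Ico]
    refine sum_le_sum fun x0 _ => sum_le_sum fun k hk => sum_le_sum fun x1 hx1 =>
      sum_le_sum fun z hz => ?_
    have hk1 : k + 1 ≤ K := by
      have := (mem_Ico.1 hk).2
      omega
    have hnn : 0 ≤ wl p ez U K F2 x1 z (k + 1) x0 *
        Xl (gv (beI p r) (p.lam s r) K (cx K x).2.1 (KT (p.lam s r) u) (o - 2) v x1 z) K k x0 :=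
      mul_nonneg (wl_nonneg hez U K F2 x1 z (k + 1) x0)
        (Xl_nonneg (fun a x' => gv_nonneg hbe.le (fun x1 => tr_T hl K u x1) (o - 2) v x1 z a x')
          K k x0)
    by_cases hch : Ch (cS p ez U K v F2 x0) k (ix k x1) (ix k z)
    · rw [if_pos hch, if_pos (ch_qL hKn x U v q2 x0 hk1 hx1 hz hch)]
      exact eL_le hez s r o x U u v F2 x0 hk1 x1 z
    · rw [if_neg hch]
      split_ifs
      · exact hnn
      · exact le_rfl
  refine (sum_le_sum fun t0 _ => hone t0).trans ?_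
  have hm := mass_v hcls.toCls
  have hpot := pot_root' (M := 10 * (J : ℝ)) (P := L * t ^ (2 - c) * √s) (by positivity)
    hcls.toCls hl (by positivity)
  have hgap := gap_le (L := L) (δ := δ / 3) (e0 := e0) ht ht1 hs hr (by linarith) hc hcc
  rw [sum_const, rt_card, nsmul_eq_mul] at hpot
  rw [sum_const, rt_card, nsmul_eq_mul]
  have hV : (0 : ℝ) ≤ s * 8 ^ K := by positivity
  set m1 := ∑ x1 ∈ iv K R1, ∑ z ∈ iv K R3, v x1 z ⬝ᵥ v x1 z with hm1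
  set m2 := ∑ x1 ∈ iv K R1, ∑ x3 ∈ iv K R3, 1 * (2 ^ K * (10 * (J : ℝ) * (p.lam s r)⁻¹ *
    (v x1 x3 ⬝ᵥ GT u x1 K (cx K x).2.1 *ᵥ v x1 x3))) with hm2
  have e1 : 2 ^ K * ∑ x1 ∈ iv K R1, ∑ z ∈ iv K R3,
        ((beI p r + 2 / 2 ^ J) * (v x1 z ⬝ᵥ v x1 z) +
          10 * J * (p.lam s r)⁻¹ * (v x1 z ⬝ᵥ GT u x1 K (cx K x).2.1 *ᵥ v x1 z)) =
      2 ^ K * ((beI p r + 2 / 2 ^ J) * m1) + m2 := by
    rw [hm1, hm2]
    simp only [sum_add_distrib, mul_sum, mul_add, one_mul]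
  rw [e1]
  have hyd : 0 < y ^ (-(δ / 3)) := Real.rpow_pos_of_pos hy0 _
  have hyd1 : 1 ≤ y ^ (-(δ / 3)) := by
    rw [Real.rpow_neg hy0.le]
    exact (one_le_inv₀ (Real.rpow_pos_of_pos hy0 _)).2
      (Real.rpow_le_one hy0.le hy1 (by positivity))
  have hye : 0 < y ^ (e0 / 2) := Real.rpow_pos_of_pos hy0 _
  have hye1 : y ^ (e0 / 2) ≤ 1 := Real.rpow_le_one hy0.le hy1 (by positivity)
  have hyδ : y ^ (-δ) = y ^ (-(δ / 3)) * y ^ (-(δ / 3)) * y ^ (-(δ / 3)) := by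
    rw [← Real.rpow_add hy0, ← Real.rpow_add hy0]
    congr 1
    ring
  have hee : y ^ e0 = y ^ (e0 / 2) * y ^ (e0 / 2) := by
    rw [← Real.rpow_add hy0]
    congr 1
    ring
  have hbeE : beI p r = y ^ (e0 / 2) := rfl
  have h2J : 2 / 2 ^ J ≤ 2 * y ^ (e0 / 2) := by
    have e2 : (2 : ℝ) / 2 ^ J = 2 * (1 / 2) ^ J := by
      rw [one_div, inv_pow]
      ring
    rw [e2]
    linarith

  have T1 : 2 ^ K * ((beI p r + 2 / 2 ^ J) * m1) ≤ 3 * y ^ (e0 / 2) * (s * 8 ^ K) := by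
    have k1 : beI p r + 2 / 2 ^ J ≤ 3 * y ^ (e0 / 2) := by
      rw [hbeE]
      linarith
    have k2 : 0 ≤ beI p r + 2 / 2 ^ J := by positivity
    calc 2 ^ K * ((beI p r + 2 / 2 ^ J) * m1) ≤ 2 ^ K * ((beI p r + 2 / 2 ^ J) * (4 ^ K * s)) := by
          gcongr
      _ ≤ 2 ^ K * (3 * y ^ (e0 / 2) * (4 ^ K * s)) := by gcongr
      _ = _ := by
          rw [show (8 : ℝ) ^ K = 2 ^ K * 4 ^ K by rw [← mul_pow]; norm_num]
          ring

  have T2 : 3 * m2 ≤ 30 * L * (CL * (y ^ (-(δ / 3)) * y ^ (-(δ / 3)))) * y ^ (e0 / 2) *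
      (s * 8 ^ K) := by
    have k1 : L * t ^ (2 - c) * √s / p.lam s r ≤ L * (y ^ (-(δ / 3)) * y ^ e0) := hgap
    have k2 : (3 : ℝ) * m2 ≤ 3 * (10 * J) * (L * t ^ (2 - c) * √s / p.lam s r) * (s * 8 ^ K) := by
      have := hpot
      push_cast at this
      exact this
    refine k2.trans ?_
    calc 3 * (10 * J) * (L * t ^ (2 - c) * √s / p.lam s r) * (s * 8 ^ K)
        ≤ 3 * (10 * (CL * y ^ (-(δ / 3)))) * (L * (y ^ (-(δ / 3)) * y ^ e0)) * (s * 8 ^ K) := by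
          gcongr
      _ = 30 * L * (CL * (y ^ (-(δ / 3)) * y ^ (-(δ / 3)))) * (y ^ (e0 / 2) * y ^ (e0 / 2)) *
          (s * 8 ^ K) := by
          rw [hee]
          ring
      _ ≤ 30 * L * (CL * (y ^ (-(δ / 3)) * y ^ (-(δ / 3)))) * (y ^ (e0 / 2) * 1) *
          (s * 8 ^ K) := by
          gcongr
      _ = _ := by ring

  have T3 : 1 * ((beI p r + 2) * (2 ^ K * ((4 * p.Lm * s) * ((1 - 1 / (cP + 2)) ^ lam *
      ((cP + 2) * 4 ^ K))))) ≤ 12 * (cP + 2) * y ^ (e0 / 2) * (s * 8 ^ K) := by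
    have k1 : beI p r + 2 ≤ 3 := by
      rw [hbeE]
      linarith
    have k2 : p.Lm * (1 - 1 / (cP + 2)) ^ lam ≤ y ^ (e0 / 2) := by
      have k3 : p.Lm * (1 - 1 / (cP + 2)) ^ lam ≤ t ^ (-d) * y ^ (e0 / 2 + d) :=
        mul_le_mul_of_nonneg_left hlam1 (Real.rpow_nonneg ht.le _)
      refine k3.trans ?_
      rw [Real.rpow_add hy0, Real.rpow_neg ht.le]
      have k4 : y ^ d ≤ t ^ d := Real.rpow_le_rpow hy0.le hyt hd.le
      have k5 : 0 < t ^ d := Real.rpow_pos_of_pos ht _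
      rw [inv_mul_le_iff₀ k5, mul_comm (t ^ d)]
      exact mul_le_mul_of_nonneg_left k4 hye.le
    have k6 : 0 ≤ (1 - 1 / (cP + 2)) ^ lam := pow_nonneg hρ0 _
    calc 1 * ((beI p r + 2) * (2 ^ K * ((4 * p.Lm * s) * ((1 - 1 / (cP + 2)) ^ lam *
        ((cP + 2) * 4 ^ K)))))
        = (beI p r + 2) * (4 * (cP + 2) * (s * (2 ^ K * 4 ^ K)) *
          (p.Lm * (1 - 1 / (cP + 2)) ^ lam)) := by ring
      _ ≤ 3 * (4 * (cP + 2) * (s * (2 ^ K * 4 ^ K)) * y ^ (e0 / 2)) := by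
          gcongr
      _ = _ := by
          rw [show (8 : ℝ) ^ K = 2 ^ K * 4 ^ K by rw [← mul_pow]; norm_num]
          ring
  have hlamn : (0 : ℝ) ≤ lam := Nat.cast_nonneg _
  push_cast
  calc (3 : ℝ) * (lam * 1 * (2 ^ K * ((beI p r + 2 / 2 ^ J) * m1) + m2) +
        1 * ((beI p r + 2) * (2 ^ K * ((4 * p.Lm * s) * ((1 - 1 / (cP + 2)) ^ lam *
          ((cP + 2) * 4 ^ K))))))
      = lam * (3 * (2 ^ K * ((beI p r + 2 / 2 ^ J) * m1))) + lam * (3 * m2) +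
        3 * (1 * ((beI p r + 2) * (2 ^ K * ((4 * p.Lm * s) * ((1 - 1 / (cP + 2)) ^ lam *
          ((cP + 2) * 4 ^ K)))))) := by ring
    _ ≤ (Cl * y ^ (-(δ / 3))) * (3 * (3 * y ^ (e0 / 2) * (s * 8 ^ K))) +
        (Cl * y ^ (-(δ / 3))) * (30 * L * (CL * (y ^ (-(δ / 3)) * y ^ (-(δ / 3)))) *
          y ^ (e0 / 2) * (s * 8 ^ K)) + 3 * (12 * (cP + 2) * y ^ (e0 / 2) * (s * 8 ^ K)) := by
        refine add_le_add (add_le_add ?_ ?_) (by linarith)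
        · refine mul_le_mul hlam2 (by linarith) ?_ (by positivity)
          have : 0 ≤ m1 := sum_nonneg fun x1 _ => sum_nonneg fun z _ => dot_self_nonneg _
          positivity
        · refine (mul_le_mul_of_nonneg_left T2 hlamn).trans
            (mul_le_mul_of_nonneg_right hlam2 (by positivity))
    _ = (9 * Cl * y ^ (-(δ / 3)) + 30 * L * Cl * CL * y ^ (-δ) + 36 * (cP + 2)) *
        (y ^ (e0 / 2) * (s * 8 ^ K)) := by
        rw [hyδ]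
        ring
    _ ≤ (9 * Cl * y ^ (-δ) + 30 * L * Cl * CL * y ^ (-δ) + 36 * (cP + 2) * y ^ (-δ)) *
        (y ^ (e0 / 2) * (s * 8 ^ K)) := by
        refine mul_le_mul_of_nonneg_right ?_ (by positivity)
        have k1 : y ^ (-(δ / 3)) ≤ y ^ (-δ) :=
          Real.rpow_le_rpow_of_exponent_ge hy0 hy1 (by linarith)
        have k2 : (1 : ℝ) ≤ y ^ (-δ) := hyd1.trans k1
        have k3 : 9 * Cl * y ^ (-(δ / 3)) ≤ 9 * Cl * y ^ (-δ) :=
          mul_le_mul_of_nonneg_left k1 (by positivity)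
        have k4 : 36 * (cP + 2) * 1 ≤ 36 * (cP + 2) * y ^ (-δ) :=
          mul_le_mul_of_nonneg_left k2 (by positivity)
        linarith
    _ = _ := by
        show _ = _ * y ^ (-δ) * (s * 8 ^ K) * y ^ (e0 / 2)
        ring

/-- **Births of the stack, per lag.** -/
theorem gBornR : GBornR := by
  have key : ∀ (ι : Type) [Fintype ι] [DecidableEq ι] (p : H401.Num) (n : ℕ) (ez : ℝ)
      (F1 F2 F3 : ℕ → Pt → ℝ) (o : ℤ) (K : ℕ) (x : Pt) (s r : ℝ) (U : Tri) (g : ℤ → ℤ → ℝ)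
      (u v : ℤ → ℤ → ι → ℝ) (Q1 Q2 Q3 : ℕ → Pt → Prop) (X : ℝ), 0 < p.t → 0 < s → 1 ≤ r →
      0 < ez → 0 ≤ X →
      (∑ t ∈ rt (cx K x), ∑ x0 ∈ iv K t, ∑ k ∈ Ico 0 K,
        ∑ x1 ∈ iv K (cx K x).1, ∑ z ∈ iv K (cx K x).2.2,
          (if Ch (cS p ez U K v F2 x0) k (ix k x1) (ix k z) then
            eL (cS p ez U K v F2 x0 (k + 1)) (thS p s r o K x u x0) K k x1 z else 0) ≤
        X * (s * 8 ^ K) * (p.t / r) ^ (p.e0 / 2)) →
      (∀ l : ℕ, ∑ t ∈ rt (cx K x), ∑ x0 ∈ iv K t, ∑ k ∈ Ico 0 K,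
        ∑ x1 ∈ iv K (cx K x).1, ∑ z ∈ iv K (cx K x).2.2,
          (if Ch (cS p ez U K v F2 x0) k (ix k x1) (ix k z) then
            eT (cS p ez U K v F2 x0 (k + 1)) (thS p s r o K x u x0) (min (k + l) K) x1 z else 0) ≤
        1 * X * (s * 8 ^ K) * (p.t / r) ^ (p.e0 / 2)) := by
    intro ι _ _ p n ez F1 F2 F3 o K x s r U g u v Q1 Q2 Q3 X _ _ _ _ _ h l
    rw [one_mul]
    refine le_trans (sum_le_sum fun t _ => sum_le_sum fun x0 _ => sum_le_sum fun k hk =>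
      sum_le_sum fun x1 _ => sum_le_sum fun z _ => ?_) h
    have hk1 := (mem_Ico.1 hk).2
    split_ifs
    · exact le_eL _ _ (by omega) (min_le_right _ _) x1 z
    · exact le_rfl
  exact PairQ.map (M := 1) zero_le_one gBorn key

end

end Vale.Agent.P141.H80
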